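import Vale.Agent.P283R.Pq.St
import Vale.Agent.P283R.Pq.Rp80

/-!
# P283R, block PQ: the order of a polynomial at a monomial place, points and charts
-/

open Set MvPolynomial
open Vale.Agent.P285N.Brep (jac Fr)

noncomputable section

namespace Vale.Agent.P283R.Pq.G67

open Vale.Agent.P287D Vale.Agent.P283M Vale.Agent.P283R.To Vale.Agent.P297Z

variable {K : Type} [Field K] [Algebra ℂ K] {d c ρ : ℕ}

theorem ex_sum {ι : Type} (P : Pl K) (S : Finset ι) (a : ι → K) (h : ∑ i ∈ S, a i ≠ 0) :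
    ∃ i ∈ S, a i ≠ 0 ∧ P.ord (a i) ≤ P.ord (∑ i ∈ S, a i) := by
  classical
  induction S using Finset.induction_on with
  | empty => simp at h
  | insert b S hb ih =>
    rw [Finset.sum_insert hb] at h ⊢
    by_cases e : ∑ i ∈ S, a i = 0
    · rw [e, add_zero] at h ⊢
      exact ⟨b, by simp, h, le_rfl⟩
    obtain ⟨i, hi, i0, k⟩ := ih e
    by_cases e' : a b = 0
    · exact ⟨i, by simp [hi], i0, by rwa [e', zero_add]⟩
    rcases min_le_iff.1 (Pl.min_ord_le_add P.toPlace e' e h) with q | q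
    exacts [⟨b, by simp, e', q⟩, ⟨i, by simp [hi], i0, k.trans q⟩]

theorem aev_eq (s : Fin c → K) (f : MvPolynomial (Fin c) ℂ) :
    aeval s f = ∑ m ∈ f.support, coeff m f • ∏ i, s i ^ m i := by
  rw [aeval_def, eval₂_eq']
  simp only [Algebra.smul_def]

theorem exm (P : Pl K) {s : Fin c → K} (hs : ∀ i, s i ≠ 0) {f : MvPolynomial (Fin c) ℂ}
    (h : aeval s f ≠ 0) : ∃ m ∈ f.support, ∑ i, m i * P.ord (s i) ≤ P.ord (aeval s f) := by
  rw [aev_eq] at h ⊢
  obtain ⟨m, hm, -, k⟩ := ex_sum P _ _ h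
  refine ⟨m, hm, ?_⟩
  rw [P.ord_smul (mem_support_iff.1 hm), P.ord_prod _ fun i _ => pow_ne_zero _ (hs i)] at k
  simpa only [Pl.ord_pow] using k

theorem ord_le (hK : FF K d) {z : Fin d → K} (hz : AlgebraicIndependent ℂ z) {j : Fin c → Fin d}
    (hj : Function.Injective j) {P : Pl K} (hP : la z P ≤ 0) {k : ℤ} (k0 : 0 ≤ k)
    (h0 : ∀ i, P.ord (z (j i)) = k) (n : ℕ) : ∀ (g : MvPolynomial (Fin c) ℂ), ∀ m ∈ g.support,
      ∑ i, m i = n → P.ord (aeval (fun a => z (j a)) g) ≤ k * n := by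
  classical
  induction n with
  | zero =>
    intro g m hm e
    obtain rfl : m = 0 := Finsupp.ext fun i =>
      Finset.sum_eq_zero_iff.1 e i (Finset.mem_univ i)
    obtain rfl | kp := k0.eq_or_lt
    · simp [R80.triv hK hz hj hP h0]
    have c0 := mem_support_iff.1 hm
    have e1 : aeval (fun a => z (j a)) g = algebraMap ℂ K (coeff 0 g) +
        aeval (fun a => z (j a)) (g - C (coeff 0 g)) := by simp
    by_cases q : aeval (fun a => z (j a)) (g - C (coeff 0 g)) = 0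
    · simp [e1, q, P.ord_const]
    obtain ⟨m, hm, k⟩ := exm P (fun i => hz.ne_zero (j i)) q
    have m0 : m ≠ 0 := by
      rintro rfl
      simp at hm
    obtain ⟨i, hi⟩ := Finsupp.ne_iff.1 m0
    have : 0 < ∑ i, (m i : ℤ) * P.ord (z (j i)) :=
      Finset.sum_pos' (fun i _ => by rw [h0]; positivity) ⟨i, Finset.mem_univ i, by
        rw [h0]; exact mul_pos (by simpa using Nat.pos_of_ne_zero hi) kp⟩
    rw [e1, Pl.ord_add_eq_of_lt _ (by simpa using c0) q (by rw [P.ord_const]; omega), P.ord_const]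
    simp
  | succ n ih =>
    intro g m hm e
    obtain ⟨i, -, hi⟩ := Finset.exists_ne_zero_of_sum_ne_zero (e ▸ n.succ_ne_zero : ∑ i, m i ≠ 0)
    have em : m - Finsupp.single i 1 + Finsupp.single i 1 = m :=
      tsub_add_cancel_of_le (Finsupp.single_le_iff.2 (by omega))
    have hm' : m - Finsupp.single i 1 ∈ (pderiv i g).support := by
      rw [mem_support_iff, coeff_pderiv, em]
      exact mul_ne_zero (mem_support_iff.1 hm) (Nat.cast_add_one_ne_zero _)
    have a := ih _ _ hm' (by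
      rw [← em] at e
      simp only [Finsupp.add_apply, Finset.sum_add_distrib, Finsupp.single_apply,
        Finset.sum_ite_eq, Finset.mem_univ, if_true] at e
      omega)
    have b := R80.rep_poly hK hz hj i (ne_zero_iff.2 ⟨_, mem_support_iff.1 hm'⟩) P
    rw [h0] at b
    have : (P.ord (aeval (fun a => z (j a)) g) : ℝ) ≤
        (P.ord (aeval (fun a => z (j a)) (pderiv i g)) + k : ℤ) := by
      push_cast
      linarith
    have := Int.cast_le.1 this
    push_cast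
    linarith

/-- the multiplicity at the origin -/
def ml (g : MvPolynomial (Fin c) ℂ) : ℕ := sInf {n | ∃ m ∈ g.support, ∑ i, m i = n}

theorem ml_le {g : MvPolynomial (Fin c) ℂ} {m : Fin c →₀ ℕ} (h : m ∈ g.support) :
    ml g ≤ ∑ i, m i := Nat.sInf_le ⟨m, h, rfl⟩

theorem ml_mem {g : MvPolynomial (Fin c) ℂ} (h : g ≠ 0) : ∃ m ∈ g.support, ∑ i, m i = ml g := by
  obtain ⟨m, hm⟩ := ne_zero_iff.1 h
  exact Nat.sInf_mem (s := {n | ∃ m ∈ g.support, ∑ i, m i = n})
    ⟨_, m, mem_support_iff.2 hm, rfl⟩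

theorem ml_zero {g : MvPolynomial (Fin c) ℂ} (h : g ≠ 0) : ml g = 0 ↔ coeff 0 g ≠ 0 := by
  refine ⟨fun e => ?_, fun e => by simpa using ml_le (mem_support_iff.2 e)⟩
  obtain ⟨m, hm, k⟩ := ml_mem h
  obtain rfl : m = 0 := Finsupp.ext fun i =>
    Finset.sum_eq_zero_iff.1 (k.trans e) i (Finset.mem_univ i)
  exact mem_support_iff.1 hm

theorem ml_X (i : Fin c) : ml (X i : MvPolynomial (Fin c) ℂ) = 1 := by
  obtain ⟨m, hm, k⟩ := ml_mem (X_ne_zero (R := ℂ) i)
  rw [support_X, Finset.mem_singleton] at hm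
  simp [← k, hm, Finsupp.single_apply]

theorem ord_ml (hK : FF K d) {z : Fin d → K} (hz : AlgebraicIndependent ℂ z) {j : Fin c → Fin d}
    (hj : Function.Injective j) {P : Pl K} (hP : la z P ≤ 0) {k : ℤ} (k0 : 0 ≤ k)
    (h0 : ∀ i, P.ord (z (j i)) = k) {g : MvPolynomial (Fin c) ℂ} (g0 : g ≠ 0) :
    P.ord (aeval (fun a => z (j a)) g) = k * ml g := by
  obtain ⟨m, hm, e⟩ := ml_mem g0
  refine le_antisymm (ord_le hK hz hj hP k0 h0 _ g m hm e) ?_
  obtain ⟨m, hm, e⟩ := exm P (fun i => hz.ne_zero (j i)) (R80.aev_ne hz hj g0)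
  refine le_trans ?_ e
  simp only [h0, ← Finset.sum_mul]
  rw [mul_comm]
  exact mul_le_mul_of_nonneg_right (by exact_mod_cast ml_le hm) k0

/-- a point of the centre outside of a hypersurface -/
theorem ex_pt (Q : Pl K) {u : Fin c → K} (hu : ∀ i, u i ∈ Q.ring) {g : MvPolynomial (Fin c) ℂ}
    (g0 : aeval u g ≠ 0) (hg : Q.ord (aeval u g) = 0) : ∃ a : Fin c → ℂ, aeval a g ≠ 0 ∧
      ∀ f : MvPolynomial (Fin c) ℂ, 0 < Q.ord (aeval u f) → aeval a f = 0 := by
  let φ : MvPolynomial (Fin c) ℂ →+* Q.ring :=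
    (aeval u).toRingHom.codRestrict Q.ring.toSubring (R80.ord_nn hu)
  let I := (IsLocalRing.maximalIdeal Q.ring).comap φ
  have hI : ∀ f, f ∈ I ↔ aeval u f = 0 ∨ 0 < Q.ord (aeval u f) := fun f =>
    Pl.mem_maximalIdeal_iff Q.toPlace (φ f)
  by_contra! k
  have : g ∈ vanishingIdeal ℂ (zeroLocus ℂ I) := fun a ha => by
    by_contra q
    obtain ⟨f, h1, h2⟩ := k a q
    exact h2 (ha f ((hI f).2 (.inr h1)))
  rw [vanishingIdeal_zeroLocus_eq_radical, Ideal.IsPrime.radical inferInstance, hI] at this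
  exact this.elim g0 (by omega)

/-- the affine chart -/
def ch (s : Fin c → K) (i : Fin c) (j : Fin c) : K := if j = i then (s i)⁻¹ else s j / s i

theorem ex_ch {s : Fin c → K} {i : Fin c} (h : s i ≠ 0) (f : MvPolynomial (Fin c) ℂ) :
    ∃ g : MvPolynomial (Fin c) ℂ, aeval s f = s i ^ f.totalDegree * aeval (ch s i) g := by
  have m1 : (s i)⁻¹ ∈ Algebra.adjoin ℂ (range (ch s i)) :=
    Algebra.subset_adjoin ⟨i, if_pos rfl⟩
  have m2 : ∀ j, s j / s i ∈ Algebra.adjoin ℂ (range (ch s i)) := fun j => by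
    by_cases e : j = i
    · rw [e, div_self h]
      exact one_mem _
    · exact Algebra.subset_adjoin ⟨j, if_neg e⟩
  have : aeval s f / s i ^ f.totalDegree ∈ Algebra.adjoin ℂ (range (ch s i)) := by
    rw [aev_eq, Finset.sum_div]
    refine sum_mem fun m hm => ?_
    obtain ⟨n, e⟩ := Nat.exists_eq_add_of_le (le_totalDegree hm)
    rw [Finsupp.sum_fintype _ _ fun _ => rfl] at e
    rw [smul_div_assoc, e, pow_add, ← div_div, ← Finset.prod_pow_eq_pow_sum,
      ← Finset.prod_div_distrib, div_eq_mul_inv, ← inv_pow]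
    refine Subalgebra.smul_mem _ (mul_mem (Subalgebra.prod_mem _ fun j _ => ?_) (pow_mem m1 _)) _
    rw [← div_pow]
    exact pow_mem (m2 j) _
  rw [Algebra.adjoin_range_eq_range_aeval] at this
  obtain ⟨g, e⟩ := this
  exact ⟨g, by rw [show aeval (ch s i) g = _ from e, mul_div_cancel₀ _ (pow_ne_zero _ h)]⟩

end Vale.Agent.P283R.Pq.G67
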