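import Mathlib

/-!
# P283R, block PQ: unique factorisation of rational functions
-/

open Set MvPolynomial

noncomputable section

namespace Vale.Agent.P283R.Pq.U60

variable {K : Type} [Field K] [Algebra ℂ K] {σ ρ : Type} {s : σ → K} {l : ρ → MvPolynomial σ ℂ}

/-- the products of the forms -/
def rt (s : σ → K) (l : ρ → MvPolynomial σ ℂ) (n : ρ →₀ ℤ) : K :=
  n.prod fun p k => aeval s (l p) ^ k

theorem aev_ne (h : AlgebraicIndependent ℂ s) {f : MvPolynomial σ ℂ} (hf : f ≠ 0) :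
    aeval s f ≠ 0 := fun e => hf (h (e.trans (map_zero _).symm))

theorem ex_irr (σ : Type) : ∃ (ρ : Type) (l : ρ → MvPolynomial σ ℂ), (∀ p, Irreducible (l p)) ∧
    (∀ p p', Associated (l p) (l p') → p = p') ∧ ∀ f, Irreducible f → ∃ p, Associated f (l p) :=
  have e : ∀ a : Associates (MvPolynomial σ ℂ), Associates.mk (Quot.out a) = a := Quot.out_eq
  ⟨{a : Associates (MvPolynomial σ ℂ) // Irreducible a}, fun a => Quot.out a.1,
    fun a => Associates.irreducible_mk.1 (by rw [e]; exact a.2),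
    fun a b h => Subtype.ext (by
      rw [← e a.1, ← e b.1]
      exact Associates.mk_eq_mk_iff_associated.2 h),
    fun f hf => ⟨⟨Associates.mk f, Associates.irreducible_mk.2 hf⟩,
      Associates.mk_eq_mk_iff_associated.1 (e _).symm⟩⟩

section

variable (h : ∀ p, aeval s (l p) ≠ 0)

include h

theorem rt_ne (n : ρ →₀ ℤ) : rt s l n ≠ 0 :=
  Finset.prod_ne_zero_iff.2 fun p _ => zpow_ne_zero _ (h p)

theorem rt_add (n n' : ρ →₀ ℤ) : rt s l (n + n') = rt s l n * rt s l n' :=
  Finsupp.prod_add_index' (fun _ => zpow_zero _) fun p _ _ => zpow_add₀ (h p) _ _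

theorem rt_sub (n n' : ρ →₀ ℤ) : rt s l (n - n') = rt s l n / rt s l n' := by
  rw [eq_div_iff (rt_ne h _), ← rt_add h, sub_add_cancel]

omit h in
theorem rt_single (p : ρ) (k : ℤ) : rt s l (Finsupp.single p k) = aeval s (l p) ^ k :=
  Finsupp.prod_single_index (zpow_zero _)

omit h in
theorem unit_c {f : MvPolynomial σ ℂ} (hf : IsUnit f) : ∃ c : ℂ, c ≠ 0 ∧ f = C c := by
  obtain ⟨r, hr, e⟩ := MvPolynomial.isUnit_iff_eq_C_of_isReduced.1 hf
  exact ⟨r, hr.ne_zero, e⟩

theorem poly [Finite σ] (all : ∀ f, Irreducible f → ∃ p, Associated f (l p))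
    {f : MvPolynomial σ ℂ} (hf : f ≠ 0) : ∃ (c : ℂ) (n : ρ →₀ ℕ), c ≠ 0 ∧
      f = C c * n.prod (fun p k => l p ^ k) ∧
      aeval s f = c • rt s l (n.mapRange (↑) Nat.cast_zero) := by
  induction f using UniqueFactorizationMonoid.induction_on_prime with
  | h₁ => exact absurd rfl hf
  | h₂ f hu =>
    obtain ⟨c, c0, rfl⟩ := unit_c hu
    exact ⟨c, 0, c0, by simp, by simp [rt, Algebra.smul_def]⟩
  | h₃ a p a0 hp ih =>
    obtain ⟨c, n, c0, e, e'⟩ := ih a0
    obtain ⟨r, u, hu⟩ := all p hp.irreducible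
    obtain ⟨c', c0', hc⟩ := unit_c (u⁻¹).isUnit
    have ep : p = C c' * l r := by
      rw [← hc, ← hu, mul_comm p, ← mul_assoc, Units.inv_mul, one_mul]
    refine ⟨c' * c, Finsupp.single r 1 + n, mul_ne_zero c0' c0, ?_, ?_⟩
    · rw [Finsupp.prod_add_index' (fun _ => pow_zero _) fun p _ _ => pow_add _ _ _,
        Finsupp.prod_single_index (h := fun p k => l p ^ k) (pow_zero _), ep, map_mul]
      conv_lhs => rw [e]
      ring
    · rw [Finsupp.mapRange_add fun _ _ => Nat.cast_add _ _, Finsupp.mapRange_single, rt_add h,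
        rt_single, map_mul, e', ep, map_mul, aeval_C]
      simp only [Algebra.smul_def, map_mul, Nat.cast_one, zpow_one]
      ring

theorem fac [Finite σ] (all : ∀ f, Irreducible f → ∃ p, Associated f (l p)) {φ : K}
    (hφ : φ ∈ IntermediateField.adjoin ℂ (range s)) (h0 : φ ≠ 0) :
    ∃ (c : ℂ) (n : ρ →₀ ℤ), c ≠ 0 ∧ φ = c • rt s l n := by
  obtain ⟨f, g, rfl⟩ := (IntermediateField.mem_adjoin_range_iff ℂ s φ).1 hφ
  obtain ⟨c, n, c0, -, e⟩ := poly h all (f := f) (by rintro rfl; simp at h0)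
  obtain ⟨c', n', c0', -, e'⟩ := poly h all (f := g) (by rintro rfl; simp at h0)
  refine ⟨c / c', n.mapRange (↑) Nat.cast_zero - n'.mapRange (↑) Nat.cast_zero,
    div_ne_zero c0 c0', ?_⟩
  rw [e, e', rt_sub h]
  simp only [Algebra.smul_def, map_div₀]
  exact mul_div_mul_comm _ _ _ _

omit h in
theorem aev_mem (f : MvPolynomial σ ℂ) : aeval s f ∈ IntermediateField.adjoin ℂ (range s) :=
  IntermediateField.algebra_adjoin_le_adjoin ℂ _ (by
    rw [Algebra.adjoin_range_eq_range_aeval]; exact ⟨f, rfl⟩)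

omit h in
theorem rt_mem (n : ρ →₀ ℤ) : rt s l n ∈ IntermediateField.adjoin ℂ (range s) :=
  prod_mem fun _ _ => zpow_mem (aev_mem _) _

omit h in
/-- a product of the forms with natural exponents is a polynomial -/
theorem rt_nat (n : ρ →₀ ℤ) (hn : ∀ p, 0 ≤ n p) :
    rt s l n = aeval s (n.prod fun p k => l p ^ k.toNat) := by
  rw [rt, Finsupp.prod, Finsupp.prod, map_prod]
  refine Finset.prod_congr rfl fun p _ => ?_
  rw [map_pow, ← zpow_natCast, Int.toNat_of_nonneg (hn p)]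

end

end Vale.Agent.P283R.Pq.U60
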