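import Vale.Agent.P283R.Pq.St
import Vale.Agent.P283R.Pq.Uf60

/-!
# P283R, block PQ: factorisation and orders
-/

open Set MvPolynomial

noncomputable section

namespace Vale.Agent.P283R.Pq

open Vale.Agent.P287D Vale.Agent.P283M Vale.Agent.P283R.To Vale.Agent.P297Z

namespace F60

variable {c ρ : ℕ}

theorem mk_l (p : Pg c) : Associates.mk p.l = p.1 := Quot.out_eq p.1

theorem irr (p : Pg c) : Irreducible p.l := Associates.irreducible_mk.1 (by rw [mk_l]; exact p.2)

theorem all (f : MvPolynomial (Fin c) ℂ) (hf : Irreducible f) : ∃ p : Pg c, Associated f p.l :=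
  ⟨⟨Associates.mk f, Associates.irreducible_mk.2 hf⟩,
    Associates.mk_eq_mk_iff_associated.1 (mk_l ⟨_, Associates.irreducible_mk.2 hf⟩).symm⟩

theorem prod_ne (n : Pg c →₀ ℕ) : (n.prod fun p k => p.l ^ k) ≠ 0 :=
  Finset.prod_ne_zero_iff.2 fun p _ => pow_ne_zero _ (irr p).ne_zero

theorem deg_pow {f : MvPolynomial (Fin c) ℂ} (hf : f ≠ 0) (k : ℕ) :
    (f ^ k).totalDegree = k * f.totalDegree := by
  induction k with
  | zero => simp
  | succ k ih => rw [pow_succ, totalDegree_mul_of_isDomain (pow_ne_zero _ hf) hf, ih]; ring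

theorem deg_smul {a : ℂ} (ha : a ≠ 0) {f : MvPolynomial (Fin c) ℂ} (hf : f ≠ 0) :
    (a • f).totalDegree = f.totalDegree := by
  rw [smul_eq_C_mul, totalDegree_mul_of_isDomain (C_ne_zero.2 ha) hf, totalDegree_C, zero_add]

theorem od_single (p : Pg c) : od (Finsupp.single p 1) none = -p.dg := by
  simp only [od]
  rw [Finsupp.sum_single_index (by simp), one_mul]

theorem od_sum (n : Pg c →₀ ℤ) (r : Option (Pg c)) :
    (n.sum fun p k => k * od (Finsupp.single p 1) r) = od n r := by
  classical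
  rcases r with _ | r
  · simp only [od_single, mul_neg]
    simp only [od, Finsupp.sum, Finset.sum_neg_distrib]
  · simp only [od, Finsupp.sum]
    rw [Finset.sum_eq_single r (fun p _ e => by rw [Finsupp.single_eq_of_ne e.symm, mul_zero])
      fun e => by rw [Finsupp.notMem_support_iff.1 e, zero_mul], Finsupp.single_eq_same, mul_one]

variable {K : Type} [Field K] [Algebra ℂ K] {s : Fin c → K} {y : Fin ρ → K}

theorem ind_s (h : AlgebraicIndependent ℂ (fr s y)) : AlgebraicIndependent ℂ s := by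
  have := h.comp (Fin.castAdd ρ) (Fin.castAdd_injective _ _)
  rwa [show fr s y ∘ Fin.castAdd ρ = s from funext fun i => Fin.append_left s y i] at this

theorem y_ne (h : AlgebraicIndependent ℂ (fr s y)) (j : Fin ρ) : y j ≠ 0 :=
  Fin.append_right s y j ▸ h.ne_zero (Fin.natAdd c j)

theorem lam_ne (h : AlgebraicIndependent ℂ s) (p : Pg c) : lam s p ≠ 0 :=
  U60.aev_ne h (irr p).ne_zero

theorem hm_eq (n : Pg c →₀ ℤ) (u : Fin ρ → ℤ) : hm s y n u = U60.rt s Pg.l n * mon y u := rfl

omit [Algebra ℂ K] in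
theorem mon_zero : mon y 0 = 1 := by simp [mon]

theorem lam_mem (p : Pg c) : lam s p ∈ Hm s y 0 :=
  ⟨_, U60.aev_mem p.l, by rw [mon_zero, mul_one]; rfl⟩

end F60

open F60

/-- **POL** -/
theorem pol60 : POL := fun c => by
  refine ⟨fun p => ⟨(irr p).prime, Nat.one_le_iff_ne_zero.2 fun e => ?_⟩, fun p p' h => ?_,
    fun g hg => ?_, fun n => ?_⟩
  · have e' := totalDegree_eq_zero_iff_eq_C.1 e
    refine (irr p).not_isUnit ?_
    rw [e']
    refine (IsUnit.mk0 _ fun z => (irr p).ne_zero ?_).map C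
    rw [e', z, map_zero]
  · exact Subtype.ext (by
      rw [← mk_l, ← mk_l]
      exact Associates.mk_eq_mk_iff_associated.2 ((irr p).associated_of_dvd (irr p') h))
  · obtain ⟨a, n, a0, e, -⟩ := U60.poly (K := FractionRing (MvPolynomial (Fin c) ℂ))
      (s := fun i => algebraMap (MvPolynomial (Fin c) ℂ) _ (X i)) (l := Pg.l)
      (fun p => by
        rw [show aeval (fun i => algebraMap (MvPolynomial (Fin c) ℂ)
          (FractionRing (MvPolynomial (Fin c) ℂ)) (X i)) p.l = algebraMap _ _ p.l from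
            DFunLike.congr_fun (show aeval _ = IsScalarTower.toAlgHom ℂ _ _ from
              algHom_ext fun i => by simp) p.l]
        exact (map_ne_zero_iff _ (IsFractionRing.injective _ _)).2 (irr p).ne_zero) all hg
    exact ⟨a, n, a0, by rw [smul_eq_C_mul]; exact e⟩
  · induction n using Finsupp.induction_linear with
    | zero => simp
    | add f g a b =>
      rw [Finsupp.prod_add_index' (fun _ => pow_zero _) fun p _ _ => pow_add _ _ _,
        Finsupp.sum_add_index' (fun _ => zero_mul _) fun p _ _ => add_mul _ _ _,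
        totalDegree_mul_of_isDomain (prod_ne f) (prod_ne g), a, b]
    | single p k =>
      rw [Finsupp.prod_single_index (h := fun (p : Pg c) k => p.l ^ k) (pow_zero _),
        Finsupp.sum_single_index (h := fun (p : Pg c) k => k * p.dg) (zero_mul _),
        deg_pow (irr p).ne_zero]
      rfl

/-- **FACR** -/
theorem facr60 : FACR := fun pol c ρ K _ _ s y h => by
  obtain ⟨p1, p2, p3, p4⟩ := pol c
  have hs := ind_s h.ind
  have y0 := y_ne h.ind
  have l : ∀ p : Pg c, aeval s p.l ≠ 0 := lam_ne hs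
  have o : ∀ (P : Pl K) (n : Pg c →₀ ℤ) (u : Fin ρ → ℤ), P.ord (hm s y n u) =
      ∑ j, u j * P.ord (y j) + n.sum fun p k => k * P.ord (lam s p) := fun P n u => by
    rw [← ord_mon P y0, add_comm, hm_eq, Pl.ord_mul _ (U60.rt_ne l n) (mon_ne y0 u), U60.rt,
      Finsupp.prod, Pl.ord_prod _ _ fun p _ => zpow_ne_zero _ (l p)]
    congr 1
    exact Finset.sum_congr rfl fun p _ => Pl.ord_zpow _ _ _
  have f1 : ∀ u, ∀ a ∈ Hm s y u, a ≠ 0 →
      ∃ (b : ℂ) (n : Pg c →₀ ℤ), b ≠ 0 ∧ a = b • hm s y n u := by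
    rintro u _ ⟨φ, hφ, rfl⟩ a0
    obtain ⟨b, n, b0, rfl⟩ := U60.fac l all hφ (left_ne_zero_of_mul a0)
    exact ⟨b, n, b0, smul_mul_assoc _ _ _⟩
  have hz : ∀ P n u, Hz s P → P.ord (hm s y n u) = ∑ j, u j * P.ord (y j) := fun P n u a => by
    rw [o]
    simp only [a _, mul_zero, Finsupp.sum, Finset.sum_const_zero, add_zero]
  have tv : ∀ P, Tv s y P ↔ Hz s P ∧ ∀ j, P.ord (y j) = 0 := fun P =>
    ⟨fun t => ⟨fun p => t 0 _ (lam_mem p) (l p), fun j => t (Pi.single j 1) _
      ⟨1, one_mem _, by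
        rw [one_mul, mon, Finset.prod_eq_single j (fun i _ e => by simp [Pi.single_eq_of_ne e])
          (by simp)]
        simp⟩ (y0 j)⟩, fun ⟨a, b⟩ u x hx x0 => by
      obtain ⟨b', n, b0, rfl⟩ := f1 u x hx x0
      rw [P.ord_smul b0, hz P n u a]
      simp only [b, mul_zero, Finset.sum_const_zero]⟩
  have nh : ∀ P r, At s P r → ¬ Hz s P := fun P r a t => by
    rcases r with _ | p
    · have b : 0 < -P.ord (1 + ∑ i, s i) := a.1
      have e : (1 + ∑ i, s i) = aeval s (1 + ∑ i, X i : MvPolynomial (Fin c) ℂ) := by simp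
      have m : (1 + ∑ i, s i) ∈ Hm s y 0 := ⟨_, U60.aev_mem _, by rw [mon_zero, mul_one, e]⟩
      have z : (1 + ∑ i, s i) ≠ 0 := by
        rw [e]
        refine U60.aev_ne hs fun z => ?_
        have := congrArg constantCoeff z
        simp at this
      obtain ⟨b', n, b0, e'⟩ := f1 0 _ m z
      rw [e', P.ord_smul b0, hz P n 0 t] at b
      simp at b
    · exact (t p).not_gt a.1
  refine ⟨f1, fun n u => ⟨mul_ne_zero (U60.rt_ne l n) (mon_ne y0 u), _, U60.rt_mem n, rfl⟩,
    fun n u n' u' => ?_, fun P r r' a b => ?_, fun P r a => ⟨fun t => nh P r a ((tv P).1 t).1,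
      nh P r a⟩, fun P r n u a => ?_, hz, o, tv, fun g hg => ?_, fun n N n0 hN => ?_⟩
  · rw [hm_eq, hm_eq, hm_eq, U60.rt_add l, mon_add y0, mul_mul_mul_comm]
  · have k : ∀ p, At s P (some p) → ¬ At s P none := fun p a b => by
      have e := b.2 p
      rw [od_single] at e
      have a' : 0 < P.ord (lam s p) := a.1
      have := mul_pos b.1 (show (0 : ℤ) < p.dg by exact_mod_cast (p1 p).2)
      linarith
    rcases r with _ | p <;> rcases r' with _ | p'
    · rfl
    · exact (k _ b a).elim
    · exact (k _ a b).elim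
    · refine congrArg _ (by_contra fun e => ?_)
      have e' := a.2 p'
      have b' : 0 < P.ord (lam s p') := b.1
      simp only [od] at e'
      rw [Finsupp.single_eq_of_ne e, mul_zero] at e'
      exact e'.not_gt b'
  · rw [o, ← od_sum n r, Finsupp.mul_sum]
    congr 1
    exact Finset.sum_congr rfl fun p _ => by dsimp only; rw [a.2 p]; ring
  · obtain ⟨b, n, b0, e⟩ := p3 g hg
    refine ⟨b, n.mapRange (↑) Nat.cast_zero, b0, fun p => by simp, ?_, fun p => ?_, ?_⟩
    · rw [e, deg_smul b0 (prod_ne n), p4]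
      simp only [od, neg_neg]
      rw [Finsupp.sum_mapRange_index (by simp)]
      simp [Finsupp.sum]
    · rw [Finsupp.mapRange_apply, Nat.cast_eq_zero, e, smul_eq_C_mul,
        (IsUnit.map C (IsUnit.mk0 b b0)).dvd_mul_left]
      refine ⟨fun z d => ?_, fun d => by_contra fun z => d ?_⟩
      · obtain ⟨p', hp', d'⟩ := (p1 p).1.exists_mem_finset_dvd d
        rw [← p2 _ _ ((p1 p).1.dvd_of_dvd_pow d')] at hp'
        exact Finsupp.mem_support_iff.1 hp' z
      · exact (dvd_pow_self _ z).trans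
          (Finset.dvd_prod_of_mem (fun p : Pg c => p.l ^ n p) (Finsupp.mem_support_iff.2 z))
    · rw [e, map_smul, hm_eq, mon_zero, mul_one, U60.rt,
        Finsupp.prod_mapRange_index (by simp), Finsupp.prod, Finsupp.prod, map_prod]
      simp
  · have e : n = (n.mapRange Int.toNat rfl).mapRange (↑) Nat.cast_zero := Finsupp.ext fun p => by
      simp [Int.toNat_of_nonneg (n0 p)]
    have d : (n.prod fun p k => p.l ^ k.toNat).totalDegree ≤ N := by
      have := p4 (n.mapRange Int.toNat rfl)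
      rw [Finsupp.prod_mapRange_index (by simp)] at this
      rw [this]
      rw [e] at hN
      simp only [od, neg_neg] at hN
      rw [Finsupp.sum_mapRange_index (by simp)] at hN
      simp only [Finsupp.sum] at hN ⊢
      exact_mod_cast hN
    rw [hm_eq, mon_zero, mul_one, U60.rt_nat n n0, aeval_def, eval₂_eq']
    refine Submodule.sum_mem _ fun m hm' => ?_
    rw [← Algebra.smul_def]
    refine Submodule.smul_mem _ _ (Submodule.subset_span ⟨m, ?_, rfl⟩)
    refine le_trans ?_ ((le_totalDegree hm').trans d)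
    rw [Finsupp.sum_fintype _ _ fun _ => rfl]

/-- **FAC** -/
theorem fac60 : FAC := facr60 pol60

end Vale.Agent.P283R.Pq
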