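import Vale.Agent.P283R.Pq.Inv80

/-!
# P283R, block PQ: the invariant form
-/

open Set MvPolynomial
open Vale.Agent.P285N.Brep (jac Fr)

noncomputable section

namespace Vale.Agent.P283R.Pq

open Vale.Agent.P287D Vale.Agent.P283M Vale.Agent.P283R.To Vale.Agent.P297Z

namespace Z80

variable {c ρ : ℕ} {K : Type} [Field K] [Algebra ℂ K] {s : Fin c → K} {y : Fin ρ → K} {P : Pl K}

theorem cz_eq (s : Fin c → K) (y : Fin ρ → K) (P : Pl K) :
    (cz s y P : ℝ) = kap (fr s y) P - ∑ j, (P.ord (y j) : ℝ) := by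
  obtain ⟨z, hz⟩ := Cb.kap_int (fr s y) P
  simp [cz, hz]

theorem la_eq (s : Fin c → K) (y : Fin ρ → K) (P : Pl K) :
    la (fr s y) P = cz s y P + 1 - ∑ i, (P.ord (s i) : ℝ) := by
  rw [cz_eq, la, Fin.sum_univ_add]
  simp only [I80.fr_l, I80.fr_r]
  ring

theorem la_int (h : D.Rat (fr s y)) (P : Pl K) : ∑ i, P.ord (s i) ≤ cz s y P + 1 := by
  have k := la_nonneg h.ff h.ind P
  rw [la_eq, sub_nonneg] at k
  exact_mod_cast k

theorem rep_int (h : D.Rat (fr s y)) (i : Fin c) {f : MvPolynomial (Fin c) ℂ} (f0 : pderiv i f ≠ 0)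
    (P : Pl K) : P.ord (aeval s f) + ∑ i, P.ord (s i) ≤
      cz s y P + 1 + P.ord (aeval s (pderiv i f)) + P.ord (s i) := by
  have k := R80.rep_poly h.ff h.ind (Fin.castAdd_injective c ρ) i f0 P
  simp only [I80.fr_l, la_eq] at k
  have : ((P.ord (aeval s f) + ∑ i, P.ord (s i) : ℤ) : ℝ) ≤
      (cz s y P + 1 + P.ord (aeval s (pderiv i f)) + P.ord (s i) : ℤ) := by
    push_cast
    linarith
  exact_mod_cast this

end Z80

open Z80

/-- **CZR** -/
theorem czr80 : CZR := fun pol fac c ρ K _ _ s y h => by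
  obtain ⟨-, -, -, -, -, f6, f7, -, -, f10, -⟩ := fac c ρ K s y h
  have y0 := I80.y_ne h.ind
  have og : ∀ g : MvPolynomial (Fin c) ℂ, g ≠ 0 → ∃ n : Pg c →₀ ℤ, 0 ≤ n ∧
      -od n none = g.totalDegree ∧ (∀ p, n p = 0 ↔ ¬ p.l ∣ g) ∧
      (∀ P r, At s P r → P.ord (aeval s g) = mu s P r * od n r) ∧
      ∀ P, Hz s P → P.ord (aeval s g) = 0 := fun g g0 => by
    obtain ⟨b, n, b0, n0, a1, a2, e⟩ := f10 g g0
    have o : ∀ P : Pl K, P.ord (aeval s g) = P.ord (hm s y n 0) := fun P => by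
      have z : hm s y n 0 ≠ 0 := ((fac c ρ K s y h).2.1 n 0).1
      rw [e, Algebra.smul_def, Pl.ord_mul _ ((map_ne_zero _).2 b0) z, P.ord_const, zero_add]
    exact ⟨n, n0, a1, a2, fun P r a => by rw [o, f6 P r n 0 a]; simp,
      fun P a => by rw [o, f7 P n 0 a]; simp⟩
  have c4 : ∀ P, At s P none → ∀ i, P.ord (s i) = -mu s P none := fun P a i => by
    obtain ⟨n, -, e, -, k, -⟩ := og (X i) (X_ne_zero i)
    have := k P none a
    rw [aeval_X, show od n none = -1 by rw [totalDegree_X] at e; omega] at this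
    omega
  have c5 : ∀ P, (Hz s P ∨ ∃ p, At s P (some p)) → ∀ i, 0 ≤ P.ord (s i) := fun P a i => by
    obtain ⟨n, n0, -, -, k, k'⟩ := og (X i) (X_ne_zero i)
    simp only [aeval_X] at k k'
    rcases a with a | ⟨p, a⟩
    · exact (k' P a).ge
    · exact (mul_nonneg a.1.le (n0 p)).trans_eq (k P _ a).symm
  refine ⟨fun P p a => ?_, fun P a => ?_, fun P a => ?_, c4, c5, ?_⟩
  · obtain ⟨i, d0, dl⟩ := R80.ex_der (f := p.l) (Nat.one_le_iff_ne_zero.1 ((pol c).1 p).2)
    obtain ⟨n, -, -, e, k, -⟩ := og _ d0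
    have z : n p = 0 := (e p).2 fun dv => (totalDegree_le_of_dvd_of_isDomain dv d0).not_gt dl
    have o := k P _ a
    rw [show od n (some p) = 0 from z, mul_zero] at o
    have r := rep_int h i d0 P
    have t := Finset.single_le_sum (f := fun i => P.ord (s i))
      (fun j _ => c5 P (.inr ⟨p, a⟩) j) (Finset.mem_univ i)
    rw [o] at r
    show P.ord (aeval s p.l) - 1 ≤ _
    omega
  · have r := la_int h P
    simp only [c4 P a, Finset.sum_const, Finset.card_univ, Fintype.card_fin, nsmul_eq_mul] at r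
    linarith
  · have r := la_int h P
    have := Finset.sum_nonneg (s := Finset.univ) fun i _ => c5 P (.inl a) i
    omega
  · obtain ⟨f, f0, e⟩ := Cb.cn_kap h.ff h.ind
    have p0 : ∏ j, y j ≠ 0 := Finset.prod_ne_zero_iff.2 fun j _ => y0 j
    refine ⟨f * ∏ j, y j, mul_ne_zero f0 p0, fun P => ?_⟩
    have := congrFun (dv_mul f0 p0) P
    rw [dv_prod _ fun j _ => y0 j] at this
    simp only [Pi.add_apply, Finset.sum_apply, dv_apply] at this
    rw [e, cz_eq, this, Pi.add_apply, dv_apply]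
    ring

end Vale.Agent.P283R.Pq
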