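import Vale.Agent.P283R.Pq.Gm67
import Vale.Agent.P283R.Pq.Cz80

/-!
# P283R, block PQ: Gauss places over a point of the cone
-/

open Set MvPolynomial
open Vale.Agent.P285N.Brep (jac Fr)

noncomputable section

namespace Vale.Agent.P283R.Pq

open Vale.Agent.P287D Vale.Agent.P283M Vale.Agent.P283R.To Vale.Agent.P297Z

namespace G67

variable {K : Type} [Field K] [Algebra ℂ K] {c ρ : ℕ} {s : Fin c → K} {y : Fin ρ → K}

theorem shift (h : D.Rat (fr s y)) (a : Fin c → ℂ) :
    D.Rat (fr (fun i => s i - algebraMap ℂ K (a i)) y) ∧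
      cz (fun i => s i - algebraMap ℂ K (a i)) y = cz s y := by
  obtain ⟨D, hD⟩ := Cb.fr_of h.ff h.ind
  have e : jac D (fr (fun i => s i - algebraMap ℂ K (a i)) y) = 1 := by
    rw [← Cb.jac_self hD, jac, jac]
    congr 1
    ext i j
    refine Fin.addCases (fun j => ?_) (fun j => ?_) j <;> simp [fr]
  have n : jac D (fr (fun i => s i - algebraMap ℂ K (a i)) y) ≠ 0 := e ▸ one_ne_zero
  refine ⟨⟨(Cb.jac_ne_iff hD _).1 n, fun x => IntermediateField.adjoin_le_iff.2 ?_ (h.gen x)⟩,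
    funext fun P => ?_⟩
  · rintro _ ⟨j, rfl⟩
    refine Fin.addCases (fun j => ?_) (fun j => ?_) j
    · have := add_mem (IntermediateField.subset_adjoin ℂ
        (range (fr (fun i => s i - algebraMap ℂ K (a i)) y)) ⟨j.castAdd ρ, rfl⟩)
        (IntermediateField.algebraMap_mem _ (a j))
      simpa [fr] using this
    · exact IntermediateField.subset_adjoin _ _ ⟨j.natAdd c, by simp [fr]⟩
  · rw [cz, cz, Cb.kap_chg hD n, e, dv_one, add_zero]

theorem chart (h : D.Rat (fr s y)) (i : Fin c) : D.Rat (fr (ch s i) y) ∧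
    ∀ R, cz s y R = cz (ch s i) y R + (c + 1) * R.ord (s i) := by
  have s0 : ∀ j, s j ≠ 0 := fun j => by simpa [fr] using h.ind.ne_zero (j.castAdd ρ)
  let w : Fin (c + ρ) → ℤ := Fin.append (fun j => if j = i then 2 else 1) 0
  let A : Matrix (Fin (c + ρ)) (Fin (c + ρ)) ℤ :=
    Matrix.of fun k => Pi.single k 1 + Pi.single (i.castAdd ρ) (-w k)
  have wi : w (i.castAdd ρ) = 2 := by simp [w]
  have hA : A * A = 1 := by
    ext k l
    simp only [A, Matrix.mul_apply, Matrix.of_apply, Pi.add_apply, Pi.single_apply, add_mul,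
      Finset.sum_add_distrib, ite_mul, zero_mul, Finset.sum_ite_eq', Finset.mem_univ, if_true, wi,
      Matrix.one_apply, @eq_comm _ l]
    split_ifs <;> ring
  have ms : ∀ k (n : ℤ), mon (fr s y) (Pi.single k n) = fr s y k ^ n := fun k n => by
    rw [mon, Finset.prod_eq_single k (fun j _ q => by simp [q]) (by simp), Pi.single_eq_same]
  have e : (fun k => mon (fr s y) (A k)) = fr (ch s i) y := funext fun k => by
    show mon (fr s y) (Pi.single k 1 + Pi.single (i.castAdd ρ) (-w k)) = _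
    rw [mon_add h.ind.ne_zero, ms, ms]
    refine Fin.addCases (fun j => ?_) (fun j => ?_) k
    · by_cases q : j = i
      · have := s0 i
        simp only [fr, w, ch, q, Fin.append_left, if_true, zpow_one, zpow_neg]
        field_simp
      · simp [fr, w, ch, q, div_eq_mul_inv]
    · simp [fr, w]
  refine ⟨e ▸ rat_bas h hA, fun R => ?_⟩
  have k := la_mon h.ff h.ind (det_ne hA) R
  have o : ∀ j, (R.ord (ch s i j) : ℝ) =
      R.ord (s j) - R.ord (s i) - if j = i then (R.ord (s i) : ℝ) else 0 := fun j => by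
    by_cases q : j = i
    · simp [ch, q]
    · simp [ch, q, Pl.ord_div _ (s0 j) (s0 i)]
  rw [e, Z80.la_eq, Z80.la_eq] at k
  simp only [o, Finset.sum_sub_distrib, Finset.sum_ite_eq', Finset.mem_univ, if_true,
    Finset.sum_const, Finset.card_univ, Fintype.card_fin, nsmul_eq_mul] at k
  have : (cz s y R : ℝ) = (cz (ch s i) y R + (c + 1) * R.ord (s i) : ℤ) := by
    push_cast
    linarith
  exact_mod_cast this

theorem mon2 (h : D.Rat (fr s y)) (t : ℕ) (v : Fin ρ → ℤ) : (v = 0 ∧ ∀ _ : Fin c, t = 0) ∨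
    ∃ (R : Pl K) (e : ℕ), 0 < e ∧ (∀ j, v j = e * R.ord (y j)) ∧
      (∀ f, f ≠ 0 → e * R.ord (aeval s f) = t * ml f) ∧ e * (cz s y R + 1) ≤ t * c := by
  by_cases z : (Fin.append (fun _ : Fin c => (t : ℤ)) v) = 0
  · exact .inl ⟨funext fun j => by simpa using congrFun z (j.natAdd c),
      fun j => by simpa using congrFun z (j.castAdd ρ)⟩
  obtain ⟨R, e, e0, a, b⟩ := mon' _ K (fr s y) _ h z
  have a1 : ∀ j, (t : ℤ) = e * R.ord (s j) := fun j => by simpa [fr] using a (j.castAdd ρ)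
  refine .inr ⟨R, e, e0, fun j => by simpa [fr] using a (j.natAdd c), fun f f0 => ?_, ?_⟩
  · have k := ord_ml h.ff h.ind (Fin.castAdd_injective c ρ) b (k := t / e) (by positivity)
      (fun j => by
        rw [a1 j, Int.mul_ediv_cancel_left _ (by omega)]
        simp [fr]) f0
    simp only [fr, Fin.append_left] at k
    rw [k]
    obtain ⟨m, -, q⟩ := ml_mem f0
    by_cases n : ml f = 0
    · simp [n]
    · obtain ⟨j, -⟩ := Finset.exists_ne_zero_of_sum_ne_zero (q ▸ n : ∑ i, m i ≠ 0)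
      rw [← mul_assoc, Int.mul_ediv_cancel' ⟨_, a1 j⟩]
  · rw [Z80.la_eq, sub_nonpos] at b
    have : cz s y R + 1 ≤ ∑ i, R.ord (s i) := by exact_mod_cast b
    refine (mul_le_mul_of_nonneg_left this (Int.natCast_nonneg e)).trans_eq ?_
    simp [Finset.mul_sum, ← a1, mul_comm]

theorem core (h : D.Rat (fr s y)) (Q : Pl K) (hs : ∀ i, 0 ≤ Q.ord (s i)) {ι : Type} {S : Set ι}
    (hS : S.Finite) (φ : ι → MvPolynomial (Fin c) ℂ) (φ0 : ∀ r, aeval s (φ r) ≠ 0)
    (hφ : ∀ r ∈ S, Q.ord (aeval s (φ r)) = 0) : ∃ m : MvPolynomial (Fin c) ℂ → ℕ,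
      (∀ f, 0 < Q.ord (aeval s f) → 1 ≤ m f) ∧ (∀ r ∈ S, m (φ r) = 0) ∧
      (∀ i, 0 < Q.ord (s i) → m (X i) = 1) ∧ ∀ (t : ℕ) (v : Fin ρ → ℤ),
        (v = 0 ∧ ∀ _ : Fin c, t = 0) ∨ ∃ (R : Pl K) (e : ℕ), 0 < e ∧ (∀ j, v j = e * R.ord (y j)) ∧
          (∀ f, aeval s f ≠ 0 → e * R.ord (aeval s f) = t * m f) ∧
          e * (cz s y R + 1) ≤ t * c := by
  have s0 : ∀ j, s j ≠ 0 := fun j => by simpa [fr] using h.ind.ne_zero (j.castAdd ρ)
  obtain ⟨a, a1, a2⟩ := ex_pt Q (fun i => (Pl.ord_nonneg_iff _ (s0 i)).1 (hs i))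
    (g := ∏ r ∈ hS.toFinset, φ r) (by
      rw [map_prod]
      exact Finset.prod_ne_zero_iff.2 fun r _ => φ0 r) (by
      rw [map_prod, Q.ord_prod _ fun r _ => φ0 r]
      exact Finset.sum_eq_zero fun r hr => hφ r (hS.mem_toFinset.1 hr))
  let sh : MvPolynomial (Fin c) ℂ →ₐ[ℂ] MvPolynomial (Fin c) ℂ := aeval fun i => X i + C (a i)
  have e1 : ∀ f, aeval (fun i => s i - algebraMap ℂ K (a i)) (sh f) = aeval s f := fun f => by
    rw [comp_aeval_apply]
    simp
  have e2 : ∀ f, coeff 0 (sh f) = aeval a f := fun f => by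
    have := comp_aeval_apply (fun i => X i + C (a i) : Fin c → MvPolynomial (Fin c) ℂ)
      (aeval fun _ => (0 : ℂ)) f
    rw [aeval_zero'] at this
    simpa [sh, constantCoeff_eq] using this
  have e3 : ∀ f, aeval s f ≠ 0 → sh f ≠ 0 := fun f q z => q (by rw [← e1, z, map_zero])
  refine ⟨fun f => ml (sh f), fun f q => Nat.one_le_iff_ne_zero.2 fun z =>
    (ml_zero (e3 f fun n => by simp [n] at q)).1 z ((e2 f).trans (a2 f q)), fun r hr =>
    (ml_zero (e3 _ (φ0 r))).2 ?_, fun i q => ?_, fun t v => ?_⟩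
  · rw [map_prod] at a1
    exact e2 _ ▸ Finset.prod_ne_zero_iff.1 a1 r (hS.mem_toFinset.2 hr)
  · have := a2 (X i) (by rwa [aeval_X])
    rw [aeval_X] at this
    simp [sh, this, ml_X]
  · refine (mon2 (shift h a).1 t v).imp_right fun ⟨R, e, e0, b1, b2, b3⟩ =>
      ⟨R, e, e0, b1, fun f q => e1 f ▸ b2 _ (e3 f q), (shift h a).2 ▸ b3⟩

end G67

open G67

/-- **GP** with the bound on the multiplicity of the hyperplane at infinity -/
theorem gp67 (pol : POL) {c ρ : ℕ} {K : Type} [Field K] [Algebra ℂ K] {s : Fin c → K}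
    {y : Fin ρ → K} (h : D.Rat (fr s y)) (Q : Pl K) (x : ℝ) (Em : Set (Option (Pg c)))
    (x0 : 0 ≤ x) (hs : ∀ i, 0 ≤ Q.ord (s i) + x) (hE : Em.Finite)
    (hv0 : ∀ r ∈ Em, hv s Q x r = 0) :
    ∃ m : Option (Pg c) → ℕ, m none ≤ 1 ∧ (∀ r, 0 < hv s Q x r → 1 ≤ m r) ∧ (∀ r ∈ Em, m r = 0) ∧
      ∀ (t : ℕ) (v : Fin ρ → ℤ),
        (v = 0 ∧ ∀ p, t * m (some p) = t * (m none * p.dg)) ∨
        ∃ (R : Pl K) (e : ℕ), 0 < e ∧ (∀ j, v j = e * R.ord (y j)) ∧
          (∀ p, e * R.ord (lam s p) = t * (m (some p) - m none * p.dg : ℤ)) ∧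
          e * (cz s y R + 1) ≤ t * ((c + 1) * (1 - m none : ℤ)) := by
  have s0 : ∀ j, s j ≠ 0 := fun j => by simpa [fr] using h.ind.ne_zero (j.castAdd ρ)
  have l0 : ∀ p : Pg c, aeval s p.l ≠ 0 := fun p => by
    simpa [fr] using R80.aev_ne h.ind (Fin.castAdd_injective c ρ) ((pol c).1 p).1.ne_zero
  have ei : ∀ p : Pg c, Nonempty (Fin c) := fun p =>
    (R80.ex_der (f := p.l) (Nat.one_le_iff_ne_zero.1 ((pol c).1 p).2)).nonempty
  have hS : (some ⁻¹' Em).Finite := hE.preimage (Option.some_injective _).injOn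
  obtain rfl | xp := x0.eq_or_lt
  · obtain ⟨m, m1, m2, -, m3⟩ := core h Q (fun i => by simpa using hs i) hS Pg.l l0
      fun p hp => by simpa [hv, lam] using hv0 _ hp
    refine ⟨fun r => r.elim 0 fun p => m p.l, zero_le_one, fun r hr => ?_, fun r hr => ?_,
      fun t v => (m3 t v).imp (fun a => ⟨a.1, fun p => by simp [a.2 (ei p).some]⟩)
        fun ⟨R, e, e0, b1, b2, b3⟩ => ⟨R, e, e0, b1, fun p => by simpa [lam] using b2 _ (l0 p),
          b3.trans (by simp [mul_add])⟩⟩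
    · cases r with
      | none => simp [hv] at hr
      | some p => exact m1 _ (by simpa [hv, lam] using hr)
    · cases r with
      | none => rfl
      | some p => exact m2 p hr
  by_cases q : ∃ i, Q.ord (s i) + x = 0
  · obtain ⟨i, hi⟩ := q
    choose φ hφ using fun p : Pg c => ex_ch (s0 i) p.l
    have φ0 : ∀ p, aeval (ch s i) (φ p) ≠ 0 := fun p => right_ne_zero_of_mul (hφ p ▸ l0 p)
    have o : ∀ (R : Pl K) p, R.ord (lam s p) =
        p.dg * R.ord (s i) + R.ord (aeval (ch s i) (φ p)) := fun R p => by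
      rw [lam, hφ, Pl.ord_mul _ (pow_ne_zero _ (s0 i)) (φ0 p), Pl.ord_pow]
      rfl
    have o2 : ∀ p, hv s Q x (some p) = Q.ord (aeval (ch s i) (φ p)) := fun p => by
      simp only [hv, o]
      push_cast
      linear_combination (p.dg : ℝ) * hi
    have oi : (Q.ord (ch s i i) : ℝ) = x := by
      simp only [ch, if_true, Pl.ord_inv]
      push_cast
      linarith
    obtain ⟨m, m1, m2, m4, m3⟩ := core (chart h i).1 Q (fun j => by
      by_cases n : j = i
      · rw [n]
        exact_mod_cast xp.le.trans_eq oi.symm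
      · have := hs j
        rw [ch, if_neg n, Pl.ord_div _ (s0 j) (s0 i)]
        exact_mod_cast (by linarith : (0 : ℝ) ≤ Q.ord (s j) - Q.ord (s i))) hS φ φ0
      fun p hp => by exact_mod_cast (o2 p).symm.trans (hv0 _ hp)
    refine ⟨fun r => r.elim 1 fun p => m (φ p), le_rfl, fun r hr => ?_, fun r hr => ?_,
      fun t v => (m3 t v).imp (fun a => ⟨a.1, fun p => by simp [a.2 i]⟩)
        fun ⟨R, e, e0, b1, b2, b3⟩ => ?_⟩
    · cases r with
      | none => exact le_rfl
      | some p => exact m1 _ (by exact_mod_cast o2 p ▸ hr)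
    · cases r with
      | none => exact absurd (hv0 _ hr) xp.ne'
      | some p => exact m2 p hr
    · have b4 := b2 (X i) (by simpa [ch] using s0 i)
      rw [m4 i (by exact_mod_cast oi ▸ xp), aeval_X, ch, if_pos rfl, Pl.ord_inv] at b4
      refine ⟨R, e, e0, b1, fun p => ?_, ?_⟩
      · have := b2 _ (φ0 p)
        simp only [o, Option.elim]
        push_cast at b4 ⊢
        linear_combination this - (p.dg : ℤ) * b4
      · rw [(chart h i).2]
        simp only [Option.elim]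
        push_cast at b4 ⊢
        have : (0 : ℤ) ≤ t := Int.natCast_nonneg t
        nlinarith
  · have hp : ∀ i, 0 < Q.ord (s i) + x := fun i => (hs i).lt_of_ne fun n => q ⟨i, n.symm⟩
    refine ⟨fun r => r.elim 1 Pg.dg, le_rfl, fun r _ => ?_, fun r hr => absurd (hv0 r hr) ?_,
      fun t v => ?_⟩
    · cases r with
      | none => exact le_rfl
      | some p => exact ((pol c).1 p).2
    · cases r with
      | none => exact xp.ne'
      | some p =>
        obtain ⟨m, hm, k⟩ := exm Q s0 (l0 p)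
        have k1 : ∑ i, m i ≤ p.dg := by
          simpa [Finsupp.sum_fintype, Pg.dg] using le_totalDegree hm
        have k2 : ∑ i, (m i : ℝ) * Q.ord (s i) ≤ Q.ord (lam s p) := by exact_mod_cast k
        have k3 : ∑ i, (m i : ℝ) * (Q.ord (s i) + x) =
            ∑ i, (m i : ℝ) * Q.ord (s i) + x * (∑ i, m i : ℕ) := by
          simp only [mul_add, Finset.sum_add_distrib, Nat.cast_sum, ← Finset.sum_mul, mul_comm x]
        have k4 : ∀ i ∈ Finset.univ, 0 ≤ (m i : ℝ) * (Q.ord (s i) + x) :=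
          fun i _ => mul_nonneg (Nat.cast_nonneg _) (hs i)
        refine ne_of_gt ?_
        show 0 < (Q.ord (lam s p) : ℝ) + x * p.dg
        obtain n | n := k1.eq_or_lt
        · obtain ⟨i, -, hi⟩ := Finset.exists_ne_zero_of_sum_ne_zero
            (n ▸ Nat.one_le_iff_ne_zero.1 ((pol c).1 p).2 : ∑ i, m i ≠ 0)
          have := Finset.sum_pos' k4 ⟨i, Finset.mem_univ i,
            mul_pos (Nat.cast_pos.2 (Nat.pos_of_ne_zero hi)) (hp i)⟩
          rw [k3, n] at this
          linarith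
        · have := Finset.sum_nonneg k4
          have n' := mul_lt_mul_of_pos_left (Nat.cast_lt (α := ℝ).2 n) xp
          linarith
    · by_cases z : v = 0
      · exact .inl ⟨z, fun p => by simp⟩
      obtain ⟨R, e, e0, b1, b2, b3⟩ := (mon2 h 0 v).resolve_left fun a => z a.1
      exact .inr ⟨R, e, e0, b1, fun p => by simpa [lam] using b2 _ ((pol c).1 p).1.ne_zero,
        by simpa using b3⟩

/-- **GPR** -/
theorem gpr67 : GPR := fun pol _ _ _ _ _ _ _ _ h Q x Em x0 hs hE hv0 =>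
  (gp67 pol h Q x Em x0 hs hE hv0).imp fun _ a => a.2

end Vale.Agent.P283R.Pq
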