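import Vale.Agent.P283R.Pq.St
import Vale.Agent.P283R.C3.Sums

/-!
# P283R, block PQ: sums of homogeneous functions
-/

open Set

noncomputable section

namespace Vale.Agent.P283R.Pq

variable {c₁ ρ : ℕ}

open Vale.Agent.P287D Vale.Agent.P283R.To

namespace S80

variable {K : Type} [Field K] [Algebra ℂ K] {d : ℕ}

theorem ind_of {s : Fin c₁ → K} {y : Fin d → K}
    (h : AlgebraicIndependent ℂ (Fin.append s y)) :
    AlgebraicIndependent (IntermediateField.adjoin ℂ (range s)) y := by
  have i1 : AlgebraicIndependent ℂ (Sum.elim y s) := by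
    have := h.comp _ ((Equiv.sumComm (Fin d) (Fin c₁)).trans finSumFinEquiv).injective
    refine (congrArg (fun w => AlgebraicIndependent ℂ w) (funext ?_)).mp this
    rintro (i | i) <;> simp
  exact IntermediateField.algebraicIndependent_adjoin_iff.2
    (AlgebraicIndependent.sumElim_iff.1 i1).2

variable {s : Fin c₁ → K} {y : Fin ρ → K} {u : Fin ρ → ℤ}

theorem hm_zero : (0 : K) ∈ Hm s y u := ⟨0, zero_mem _, (zero_mul _).symm⟩

theorem hm_add {a b : K} (h : a ∈ Hm s y u) (h' : b ∈ Hm s y u) : a + b ∈ Hm s y u :=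
  let ⟨φ, p, e⟩ := h
  let ⟨ψ, q, e'⟩ := h'
  ⟨φ + ψ, add_mem p q, by rw [e, e', add_mul]⟩

theorem hm_smul (c : ℂ) {a : K} (h : a ∈ Hm s y u) : c • a ∈ Hm s y u :=
  let ⟨φ, p, e⟩ := h
  ⟨c • φ, IntermediateField.smul_mem _ p, by rw [e, smul_mul_assoc]⟩

omit [Algebra ℂ K] in
theorem tot_add (G G' : (Fin ρ → ℤ) →₀ K) : tot (G + G') = tot G + tot G' :=
  Finsupp.sum_add_index' (fun _ => rfl) fun _ _ _ => rfl

theorem tot_smul (c : ℂ) (G : (Fin ρ → ℤ) →₀ K) : tot (c • G) = c • tot G := by
  rw [tot, Finsupp.sum_smul_index' fun _ => rfl, tot, Finsupp.smul_sum]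

omit [Algebra ℂ K] in
theorem tot_single (u : Fin ρ → ℤ) (a : K) : tot (Finsupp.single u a) = a :=
  Finsupp.sum_single_index rfl

end S80

open S80

/-- **SUMS** -/
theorem sums80 : SUMS := by
  classical
  intro c₁ ρ K _ _ s y h
  refine ⟨fun G g G0 e => G0 (Finsupp.ext fun u => ?_), fun G P e => ?_, fun A a ha => ?_⟩
  · choose φ p q using g
    by_contra k
    have i : AlgebraicIndependent (IntermediateField.adjoin ℂ (range s)) y := ind_of h.ind
    have w := C3.Sm.zero_of i G.support (fun v => ⟨φ v, p v⟩) (by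
      rw [← e]
      exact Finset.sum_congr rfl fun v _ => (q v).symm) u (Finsupp.mem_support_iff.2 k)
    have w' : φ u = 0 := congrArg Subtype.val w
    exact k (by rw [q u, w', zero_mul]; rfl)
  · by_contra k
    push Not at k
    have : tot G ∈ P.sub (-(P.ord (tot G) : ℝ) - 1) := sum_mem fun u hu => .inr (by
      have : ((P.ord (tot G) + 1 : ℤ) : ℝ) ≤ P.ord (G u) :=
        Int.cast_le.2 (k u (Finsupp.mem_support_iff.1 hu))
      push_cast at this
      linarith)
    linarith [this.resolve_left e]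
  · induction ha using Submodule.span_induction with
    | mem b hb =>
      obtain ⟨b1, v, b2⟩ := hb
      refine ⟨Finsupp.single v b, fun u => ?_, (tot_single v b).symm, fun u => ?_⟩ <;>
        rcases eq_or_ne u v with rfl | k
      · rwa [Finsupp.single_eq_same]
      · rw [Finsupp.single_eq_of_ne k]; exact hm_zero
      · rw [Finsupp.single_eq_same]; exact Submodule.subset_span ⟨b1, b2⟩
      · rw [Finsupp.single_eq_of_ne k]; exact zero_mem _
    | zero => exact ⟨0, fun _ => hm_zero, rfl, fun _ => zero_mem _⟩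
    | add a b _ _ p q =>
      obtain ⟨G, g1, rfl, g2⟩ := p
      obtain ⟨G', g3, rfl, g4⟩ := q
      exact ⟨G + G', fun u => hm_add (g1 u) (g3 u), (tot_add _ _).symm,
        fun u => add_mem (g2 u) (g4 u)⟩
    | smul c a _ p =>
      obtain ⟨G, g1, rfl, g2⟩ := p
      exact ⟨c • G, fun u => hm_smul c (g1 u), (tot_smul _ _).symm,
        fun u => Submodule.smul_mem _ c (g2 u)⟩

end Vale.Agent.P283R.Pq
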