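import Vale.Agent.P283R.C3.St
import Vale.Agent.P283R.Sl.Pq

/-!
# P283R, block PQ: torus actions with the orbit space open in a projective space, the statements
-/

open Set CategoryTheory AlgebraicGeometry

noncomputable section

namespace Vale.Agent.P283R.Pq

open Vale.Agent.P287D Vale.Agent.P283M Vale.Agent.P283R.To

open C3 (KT CONV)

variable {c ρ : ℕ}

/-- the pages: irreducible polynomials up to units -/
def Pg (c : ℕ) : Type := {a : Associates (MvPolynomial (Fin c) ℂ) // Irreducible a}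

/-- the equation of a page -/
def Pg.l (p : Pg c) : MvPolynomial (Fin c) ℂ := Quot.out p.1

/-- the degree of a page -/
def Pg.dg (p : Pg c) : ℕ := p.l.totalDegree

/-- the orders along the hypersurfaces of the projective space -/
def od (n : Pg c →₀ ℤ) : Option (Pg c) → ℤ
  | none => -n.sum fun p k => k * p.dg
  | some p => n p

section defs

variable {K : Type} [Field K] [Algebra ℂ K] {ι : Type}

/-- the frame -/
def fr (s : Fin c → K) (y : Fin ρ → K) : Fin (c + ρ) → K := Fin.append s y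

/-- the equation of a page as a function -/
def lam (s : Fin c → K) (p : Pg c) : K := MvPolynomial.aeval s p.l

/-- homogeneous functions of the degree `u` -/
def Hm (s : Fin c → K) (y : Fin ρ → K) (u : Fin ρ → ℤ) : Set K :=
  {a | ∃ φ ∈ IntermediateField.adjoin ℂ (range s), a = φ * mon y u}

/-- a family of homogeneous components -/
def Hg (s : Fin c → K) (y : Fin ρ → K) (G : (Fin ρ → ℤ) →₀ K) : Prop := ∀ u, G u ∈ Hm s y u

/-- the sum of the components -/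
def tot (G : (Fin ρ → ℤ) →₀ K) : K := G.sum fun _ a => a

/-- the standard homogeneous functions -/
def hm (s : Fin c → K) (y : Fin ρ → K) (n : Pg c →₀ ℤ) (u : Fin ρ → ℤ) : K :=
  (n.prod fun p k => lam s p ^ k) * mon y u

/-- the place is trivial on the homogeneous functions -/
def Tv (s : Fin c → K) (y : Fin ρ → K) (P : Pl K) : Prop :=
  ∀ u, ∀ a ∈ Hm s y u, a ≠ 0 → P.ord a = 0

/-- the place is trivial on the invariant functions -/
def Hz (s : Fin c → K) (P : Pl K) : Prop := ∀ p, P.ord (lam s p) = 0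

/-- the order of the local equation of a hypersurface of the projective space -/
def mu (s : Fin c → K) (P : Pl K) : Option (Pg c) → ℤ
  | none => -P.ord (1 + ∑ i, s i)
  | some p => P.ord (lam s p)

/-- the place lies over the hypersurface `r` of the projective space -/
def At (s : Fin c → K) (P : Pl K) (r : Option (Pg c)) : Prop :=
  0 < mu s P r ∧ ∀ p, P.ord (lam s p) = mu s P r * od (Finsupp.single p 1) r

/-- the order of the form `ds dy / y` -/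
def cz (s : Fin c → K) (y : Fin ρ → K) (P : Pl K) : ℤ := ⌊kap (fr s y) P⌋ - ∑ j, P.ord (y j)

/-- the order of the form of the page `r` at the lift of `Q` with the weight `x` of `z₀` -/
def hv (s : Fin c → K) (Q : Pl K) (x : ℝ) : Option (Pg c) → ℝ
  | none => x
  | some p => Q.ord (lam s p) + x * p.dg

/-- the family `P` of the prime divisors, `w` selects those in the open set -/
structure Fm (s : Fin c → K) (y : Fin ρ → K) (w : ι → Prop) (P : ι → Pl K) : Prop where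
  rat : D.Rat (fr s y)
  fin : ∀ a : K, {E | w E ∧ (P E).ord a ≠ 0}.Finite
  finc : {E | w E ∧ cz s y (P E) ≠ 0}.Finite
  inv : ∀ E, w E → ¬ Tv s y (P E) → ∀ G, Hg s y G → ∀ u, G u ≠ 0 →
    (P E).ord (tot G) ≤ (P E).ord (G u)
  lau : ∀ φ : K, φ ≠ 0 → (∀ E, w E → Tv s y (P E) → 0 ≤ (P E).ord φ) → ∃ G, Hg s y G ∧ φ = tot G
  eqn : ∀ a : ι → ℤ, {E | a E ≠ 0}.Finite →
    ∃ φ : K, φ ≠ 0 ∧ ∀ E, w E → Tv s y (P E) → (P E).ord φ = a E
  kt : ∀ E, w E → Tv s y (P E) → cz s y (P E) = 0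
  mis : {p : Pg c | ¬ ∃ E, w E ∧ At s (P E) (some p)}.Finite
  pg : ∀ E, w E → Hz s (P E) ∨ ∃ r, At s (P E) r

/-- `ε`-lc and nef: `q (K + B) = div g + ∑ κ_E E` -/
def Hw (ε : ℝ) (q : ℕ) (s : Fin c → K) (y : Fin ρ → K) (w : ι → Prop) (P : ι → Pl K) (g : K)
    (κ : ι → ℤ) : Prop :=
  ∀ (Q : Pl K) (ξ : ι → ℝ), 0 ≤ ξ → (∀ E, ξ E ≠ 0 → w E ∧ ¬ Tv s y (P E)) →
    (∀ u, ∀ a ∈ Hm s y u, a ≠ 0 → ∑ᶠ E, ξ E * (P E).ord a ≤ Q.ord a) →
    ε * q ≤ q * (cz s y Q + 1) - Q.ord g - ∑ᶠ E, ξ E * κ E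

end defs

/-- a property of a frame -/
def ForR (p : ∀ (c ρ : ℕ) (K : Type) [Field K] [Algebra ℂ K], (Fin c → K) → (Fin ρ → K) → Prop) :
    Prop :=
  ∀ (c ρ : ℕ) (K : Type) [Field K] [Algebra ℂ K] (s : Fin c → K) (y : Fin ρ → K),
    D.Rat (fr s y) → p c ρ K s y

/-! ### the rows on the field -/

/-- **POL**: polynomials are products of the equations of pages -/
def POL : Prop := ∀ c : ℕ, (∀ p : Pg c, Prime p.l ∧ 1 ≤ p.dg) ∧
  (∀ p p' : Pg c, p.l ∣ p'.l → p = p') ∧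
  (∀ g : MvPolynomial (Fin c) ℂ, g ≠ 0 → ∃ (a : ℂ) (n : Pg c →₀ ℕ), a ≠ 0 ∧
    g = a • n.prod fun p k => p.l ^ k) ∧
  ∀ n : Pg c →₀ ℕ, (n.prod fun p k => p.l ^ k).totalDegree = n.sum fun p k => k * p.dg

/-- **FAC**: factorisation and orders -/
def FAC : Prop := ForR fun c ρ K _ _ s y =>
  (∀ u, ∀ a ∈ Hm s y u, a ≠ 0 → ∃ (b : ℂ) (n : Pg c →₀ ℤ), b ≠ 0 ∧ a = b • hm s y n u) ∧
  (∀ n u, hm s y n u ≠ 0 ∧ hm s y n u ∈ Hm s y u) ∧
  (∀ n u n' u', hm s y (n + n') (u + u') = hm s y n u * hm s y n' u') ∧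
  (∀ P r r', At s P r → At s P r' → r = r') ∧
  (∀ P r, At s P r → ¬ Tv s y P ∧ ¬ Hz s P) ∧
  (∀ P r n u, At s P r → P.ord (hm s y n u) = ∑ j, u j * P.ord (y j) + mu s P r * od n r) ∧
  (∀ P n u, Hz s P → P.ord (hm s y n u) = ∑ j, u j * P.ord (y j)) ∧
  (∀ (P : Pl K) (n : Pg c →₀ ℤ) (u : Fin ρ → ℤ), P.ord (hm s y n u) =
    ∑ j, u j * P.ord (y j) + n.sum fun p k => k * P.ord (lam s p)) ∧
  (∀ P, Tv s y P ↔ Hz s P ∧ ∀ j, P.ord (y j) = 0) ∧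
  (∀ g : MvPolynomial (Fin c) ℂ, g ≠ 0 → ∃ (b : ℂ) (n : Pg c →₀ ℤ), b ≠ 0 ∧ 0 ≤ n ∧
    -od n none = g.totalDegree ∧ (∀ p, n p = 0 ↔ ¬ p.l ∣ g) ∧
    MvPolynomial.aeval s g = b • hm s y n 0) ∧
  ∀ n : Pg c →₀ ℤ, ∀ N : ℕ, 0 ≤ n → -od n none ≤ N → hm s y n 0 ∈ Submodule.span ℂ
    {a | ∃ m : Fin c → ℕ, ∑ i, m i ≤ N ∧ a = ∏ i, s i ^ m i}

/-- **SUMS**: sums of homogeneous functions -/
def SUMS : Prop := ForR fun _ ρ K _ _ s y => (∀ G, Hg s y G → G ≠ 0 → tot G ≠ 0) ∧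
  (∀ (G : (Fin ρ → ℤ) →₀ K) (P : Pl K), tot G ≠ 0 → ∃ u, G u ≠ 0 ∧ P.ord (G u) ≤ P.ord (tot G)) ∧
  ∀ (A : Set K), ∀ a ∈ Submodule.span ℂ {b ∈ A | ∃ u, b ∈ Hm s y u},
    ∃ G, Hg s y G ∧ a = tot G ∧ ∀ u, G u ∈ Submodule.span ℂ (A ∩ Hm s y u)

/-- **CZ**: the invariant form -/
def CZ : Prop := ForR fun c ρ K _ _ s y =>
  (∀ P p, At s P (some p) → mu s P (some p) - 1 ≤ cz s y P) ∧
  (∀ P, At s P none → -1 - c * mu s P none ≤ cz s y P) ∧ (∀ P, Hz s P → -1 ≤ cz s y P) ∧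
  (∀ P, At s P none → ∀ i, P.ord (s i) = -mu s P none) ∧
  (∀ P, (Hz s P ∨ ∃ p, At s P (some p)) → ∀ i, 0 ≤ P.ord (s i)) ∧
  ∃ h : K, h ≠ 0 ∧ ∀ P, cn K (c + ρ) P = cz s y P + P.ord h

/-- **GP**: Gauss places over a point of the cone over the projective space; the point lies on
the pages which vanish at the lift of `Q` and outside of the pages of `Em` -/
def GP : Prop := ForR fun c ρ K _ _ s y => ∀ (Q : Pl K) (x : ℝ) (Em : Set (Option (Pg c))),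
  0 ≤ x → (∀ i, 0 ≤ Q.ord (s i) + x) → Em.Finite → (∀ r ∈ Em, hv s Q x r = 0) →
    ∃ m : Option (Pg c) → ℕ, (∀ r, 0 < hv s Q x r → 1 ≤ m r) ∧ (∀ r ∈ Em, m r = 0) ∧
      ∀ (t : ℕ) (v : Fin ρ → ℤ),
        (v = 0 ∧ ∀ p, t * m (some p) = t * (m none * p.dg)) ∨
        ∃ (R : Pl K) (e : ℕ), 0 < e ∧ (∀ j, v j = e * R.ord (y j)) ∧
          (∀ p, e * R.ord (lam s p) = t * (m (some p) - m none * p.dg : ℤ)) ∧
          e * (cz s y R + 1) ≤ t * ((c + 1) * (1 - m none : ℤ))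

/-- **FACR** -/
def FACR : Prop := POL → FAC

/-- **CZR** -/
def CZR : Prop := POL → FAC → CZ

/-- **GPR** -/
def GPR : Prop := POL → FAC → GP

/-! ### the rows on schemes -/

section sch

open Vale.Agent.P289 (Pt DForm dimension)
open Vale.Agent.P283M.Stm Vale.Agent.P283M.Stm.Var Vale.Agent.P283M.Br Vale.Agent.P283R.Gl

/-- `W` is covered by graded affine charts -/
def CoY {X : Var} (W : X.X.Opens) (s : Fin c → X.K) (y : Fin ρ → X.K) : Prop :=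
  AlgebraicIndependent ℂ (fr s y) ∧ ∀ x ∈ W, ∃ U ≤ W, IsAffineOpen U ∧ x ∈ U ∧
    ∀ g, (∀ x' ∈ U, RegAt g x') →
      g ∈ Submodule.span ℂ {b ∈ {b | ∀ x' ∈ U, RegAt b x'} | ∃ u, b ∈ Hm s y u}

/-- a property of a variety with graded charts -/
def ForX (p : ∀ (c ρ : ℕ) (X : Var), X.X.Opens → (Fin c → X.K) → (Fin ρ → X.K) → Prop) : Prop :=
  ∀ (c ρ : ℕ) (X : Var) (W : X.X.Opens) (s : Fin c → X.K) (y : Fin ρ → X.K) (x : Pt X.X),
    CoY W s y → x ∈ W → p c ρ X W s y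

/-- the prime divisors lie over hypersurfaces -/
def Ovh {X : Var} (W : X.X.Opens) (s : Fin c → X.K) : Prop :=
  ∀ E : X.PrimeDiv, E.1 ∈ W → Hz s (pq E) ∨ ∃ r, At s (pq E) r

/-- **RAT** -/
def RAT : Prop := ForX fun _ _ X W s y => D.Rat (fr s y) ∧
  ∀ E : X.PrimeDiv, E.1 ∈ W → Tv s y (pq E) → Tpr (fr s y) (pq E)

/-- **INV** -/
def INV : Prop := ForX fun _ _ X W s y => ∀ E : X.PrimeDiv, E.1 ∈ W → ¬ Tv s y (pq E) →
  ∀ G, Hg s y G → ∀ u, G u ≠ 0 → (pq E).ord (tot G) ≤ (pq E).ord (G u)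

/-- **LAU** -/
def LAU : Prop := ForX fun _ _ X W s y => ∀ φ : X.K, φ ≠ 0 →
  (∀ E : X.PrimeDiv, E.1 ∈ W → Tv s y (pq E) → 0 ≤ (pq E).ord φ) → ∃ G, Hg s y G ∧ φ = tot G

/-- **MIS** -/
def MIS : Prop := ForX fun c _ X W s _ => Ovh W s →
  {p : Pg c | ¬ ∃ E : X.PrimeDiv, E.1 ∈ W ∧ At s (pq E) (some p)}.Finite

/-- **FM**: the prime divisors form a family -/
def FM : Prop := ForX fun _ _ X W s y => Ovh W s → Fm s y (fun E : X.PrimeDiv => E.1 ∈ W) pq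

/-- **HWS**: the inequality -/
def HWS : Prop := ∀ (n c ρ : ℕ) (X Z : Var) (f : X.X ⟶ Z.X) (ω : DForm ℂ X.K (n + 1)) (B : X.QDiv)
  (z : Pt Z.X) (ε : ℝ) (q : ℕ) (V : Z.X.Opens) (s : Fin c → X.K) (g : X.K) (y : Fin ρ → X.K)
  (κ : X.PrimeDiv → ℤ), c + ρ = n + 1 →
    FF X.K (n + 1) → ω.Nonzero → Pair (ε ≤ ·) ⊤ ω B → Contraction f → FanoType f ω →
    NefOver f (-logCan ω B) → IsClosed ({z} : Set (Pt Z.X)) → IsAffineOpen V → z ∈ V → 1 ≤ q →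
    Fm s y (fun E : X.PrimeDiv => E.1 ∈ f ⁻¹ᵁ V) pq → g ≠ 0 →
    (∀ E : X.PrimeDiv, E.1 ∈ f ⁻¹ᵁ V →
      (κ E : ℚ) = q * cz s y (pq E) + q * B E - (pq E).ord g) →
    (∀ E : X.PrimeDiv, E.1 ∈ f ⁻¹ᵁ V → Tv s y (pq E) → κ E = 0) →
    Hw ε q s y (fun E : X.PrimeDiv => E.1 ∈ f ⁻¹ᵁ V) pq g κ

end sch

/-- **INVR** -/
def INVR : Prop := RAT → INV

/-- **LAUR** -/
def LAUR : Prop := SUMS → RAT → LAU

/-- **MISR** -/
def MISR : Prop := POL → MIS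

/-- **FMR** -/
def FMR : Prop := CZ → KT → RAT → INV → LAU → MIS → FM

/-- **HWR** -/
def HWR : Prop := SUMS → CZ → CONV → HWS

/-- **OVH**: the clause of the text -/
def OVH : Prop := ∀ (c : ℕ) (K : Type) [Field K] [Algebra ℂ K] (s : Fin c → K) (P : Pl K)
  (l : MvPolynomial (Fin (c + 1)) ℂ), AlgebraicIndependent ℂ s → Prime l →
    (∀ (n : ℕ) (g h : MvPolynomial (Fin (c + 1)) ℂ), g.IsHomogeneous n → h.IsHomogeneous n →
      ¬ l ∣ g → ¬ l ∣ h → P.ord (MvPolynomial.aeval (Fin.cons 1 s : Fin (c + 1) → K) g) =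
        P.ord (MvPolynomial.aeval (Fin.cons 1 s : Fin (c + 1) → K) h)) →
    Hz s P ∨ ∃ r, At s P r

/-- **OVHR** -/
def OVHR : Prop := POL → OVH

/-- **ONE**: complexity one -/
def ONE : Prop := ∀ (K : Type) [Field K] [Algebra ℂ K] (s : Fin 1 → K) (P : Pl K),
  AlgebraicIndependent ℂ s → Hz s P ∨ ∃ r, At s P r

/-- **ONER** -/
def ONER : Prop := POL → ONE

open Sl Sl.Var in
/-- **TXT**: from the text to the family -/
def TXT : Prop := ∀ (X : Sl.Var) (W : X.X.Opens) (x : Pt X.X), x.In W →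
  (ProjectiveQuotient W ∨ ∃ r, ComplexityOne W r) → ∃ (c ρ : ℕ) (s : Fin c → X.K) (y : Fin ρ → X.K),
    Fm s y (fun E : X.o.PrimeDiv => E.1 ∈ W) Gl.pq

/-- **TXTR** -/
def TXTR : Prop := OVH → ONE → FM → TXT

end Vale.Agent.P283R.Pq
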