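import Mathlib.RingTheory.Spectrum.Prime.Chevalley
import Vale.Agent.P283R.Pq.St
import Vale.Agent.P283R.C3.Fm

/-!
# P283R, block PQ: only finitely many pages are empty; the prime divisors form a family
-/

open Set AlgebraicGeometry

noncomputable section

namespace Vale.Agent.P283R.Pq

open Vale.Agent.P287D Vale.Agent.P283M Vale.Agent.P283R.To Vale.Agent.P297Z

namespace M29

/-- the primes which become units in a domain of finite type divide one element -/
theorem gen {R B : Type} [CommRing R] [CommRing B] [IsDomain B] [IsNoetherianRing R]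
    {φ : R →+* B} (ft : φ.FiniteType) (inj : Function.Injective φ) :
    ∃ h : R, h ≠ 0 ∧ ∀ l : R, Prime l → IsUnit (φ l) → l ∣ h := by
  obtain ⟨S, hS⟩ := PrimeSpectrum.exists_constructibleSetData_iff.2
    (PrimeSpectrum.isConstructible_range_comap (RingHom.FinitePresentation.of_finiteType.1 ft))
  have m := mem_range_self (f := PrimeSpectrum.comap φ) ⟨⊥, Ideal.isPrime_bot⟩
  rw [← hS] at m
  obtain ⟨C, hC, m1, m2⟩ := mem_iUnion₂.1 m
  refine ⟨C.f, fun a => m2 (by rw [a]; simp), fun l hl u => by_contra fun c => ?_⟩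
  have k : (⟨Ideal.span {l}, (Ideal.span_singleton_prime hl.ne_zero).2 hl⟩ : PrimeSpectrum R) ∈
      S.toSet := mem_iUnion₂.2 ⟨C, hC, fun a ha => by
        rw [show a = 0 from inj ((show φ a = 0 from m1 ha).trans (map_zero φ).symm)]
        exact zero_mem _, fun a => c (Ideal.mem_span_singleton.1 (a rfl))⟩
  rw [hS] at k
  obtain ⟨q, hq⟩ := k
  have : l ∈ (PrimeSpectrum.comap φ q).asIdeal := by
    rw [hq]; exact Ideal.mem_span_singleton_self _
  exact q.2.ne_top (q.asIdeal.eq_top_of_isUnit_mem this u)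

/-- a finitely generated algebra contains the inverses of only finitely many equations -/
theorem units (pol : POL) {c : ℕ} {K : Type} [Field K] [Algebra ℂ K] (T : Finset K) {s : Fin c → K}
    (hs : AlgebraicIndependent ℂ s) :
    {p : Pg c | (lam s p)⁻¹ ∈ Algebra.adjoin ℂ (T : Set K)}.Finite := by
  classical
  let B : Subalgebra ℂ K := Algebra.adjoin ℂ ((T ∪ Finset.univ.image s : Finset K) : Set K)
  have le : Algebra.adjoin ℂ (T : Set K) ≤ B := Algebra.adjoin_mono (by simp)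
  let t : Fin c → B := fun i => ⟨s i, Algebra.subset_adjoin (by simp)⟩
  let φ : MvPolynomial (Fin c) ℂ →ₐ[ℂ] B := MvPolynomial.aeval t
  have e : ∀ h, (φ h : K) = MvPolynomial.aeval s h := fun h =>
    DFunLike.congr_fun (MvPolynomial.comp_aeval t B.val) h
  have inj : Function.Injective φ := fun a b h => hs (by rw [← e, ← e, h])
  have : Algebra.FiniteType ℂ B := (Subalgebra.fg_iff_finiteType B).1 ⟨_, rfl⟩
  obtain ⟨h, h0, hh⟩ := gen (φ := φ.toRingHom) (RingHom.FiniteType.of_comp_finiteType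
    (f := algebraMap ℂ _) (by
      rw [show φ.toRingHom.comp (algebraMap ℂ _) = algebraMap ℂ B from φ.comp_algebraMap]
      exact RingHom.finiteType_algebraMap.2 this)) inj
  obtain ⟨p1, p2, p3, -⟩ := pol c
  obtain ⟨a, n, a0, rfl⟩ := p3 h h0
  refine n.support.finite_toSet.subset fun p hp => ?_
  have l0 : lam s p ≠ 0 := fun z => (p1 p).1.ne_zero (hs (z.trans (map_zero _).symm))
  have d := hh _ (p1 p).1 (IsUnit.of_mul_eq_one ⟨_, le hp⟩
    (Subtype.ext ((congrArg (· * _) (e _)).trans (mul_inv_cancel₀ l0))))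
  rw [MvPolynomial.smul_eq_C_mul, (a0.isUnit.map MvPolynomial.C).dvd_mul_left] at d
  obtain ⟨p', b, d⟩ := ((p1 p).1.dvd_finsetProd_iff _).1 d
  rwa [p2 _ _ ((p1 p).1.dvd_of_dvd_pow d)]

theorem at_le {c : ℕ} {K : Type} [Field K] [Algebra ℂ K] {s : Fin c → K} {P : Pl K} {p : Pg c}
    (h : Hz s P ∨ ∃ r, At s P r) (n : ¬ At s P (some p)) : P.ord (lam s p) ≤ 0 := by
  classical
  obtain h | ⟨_ | p', h⟩ := h
  · exact (h p).le
  · rw [h.2, od, Finsupp.sum_single_index (zero_mul _)]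
    exact mul_nonpos_of_nonneg_of_nonpos h.1.le (by simp)
  · rw [h.2, od, Finsupp.single_eq_of_ne fun e : p' = p => n (e ▸ h), mul_zero]

theorem mem_hm {c ρ : ℕ} {K : Type} [Field K] [Algebra ℂ K] (s : Fin c → K) (y : Fin ρ → K)
    (j : Fin ρ) : y j ∈ Hm s y (Pi.single j 1) :=
  ⟨1, one_mem _, by
    rw [one_mul, mon, Finset.prod_eq_single j (fun i _ z => by rw [Pi.single_eq_of_ne z, zpow_zero])
      fun z => (z (Finset.mem_univ _)).elim, Pi.single_eq_same, zpow_one]⟩

end M29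

open Vale.Agent.P283M.Stm Vale.Agent.P283M.Stm.Var Vale.Agent.P283M.Br Vale.Agent.P283R.Gl M29

theorem M29.fin_cn {X : Var} : ∀ {N : ℕ}, FF X.K N →
    {E : X.PrimeDiv | cn X.K N (pq E) ≠ 0}.Finite
  | 0, h => finite_empty.subset fun E _ => Bm.no_pl h (pq E)
  | _ + 1, h => C3.F65.fin_cn h

/-- **MISR** -/
theorem misr29 : MISR := fun pol c ρ X W s y x h hx ov => by
  obtain ⟨U, UW, hU, xU, -⟩ := h.2 x hx
  obtain ⟨T, -, hT⟩ := Am.Str.fg (Am.str X) hU xU
  have hs : AlgebraicIndependent ℂ s := by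
    have := h.1.comp (Fin.castAdd ρ) (Fin.castAdd_injective _ _)
    rwa [show fr s y ∘ Fin.castAdd ρ = s from funext (Fin.append_left s y)] at this
  refine (units pol T hs).subset fun p hp =>
    hT _ (Am.mem_reg.2 fun x' hx' => har X _ x' fun E hE => ?_)
  have m := UW (hE.mem_open U.isOpen hx')
  rw [pq_ord, (pq E).ord_inv, neg_nonneg]
  exact at_le (ov E m) fun a => hp ⟨E, m, a⟩

/-- **FMR** -/
theorem fmr29 : FMR := fun cZ kt rat inv lau mis c ρ X W s y x h hx ov => by
  classical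
  obtain ⟨r, tp⟩ := rat c ρ X W s y x h hx
  refine ⟨r, fun a => (fin X a).subset fun E c => by rw [mem_ofPred, pq_ord]; exact c.2, ?_,
    inv c ρ X W s y x h hx, lau c ρ X W s y x h hx, fun c hc => ?_, fun E a b => ?_,
    mis c ρ X W s y x h hx ov, ov⟩
  · obtain ⟨-, -, -, -, -, g, -, hg⟩ := cZ c ρ X.K s y r
    refine ((fin_cn r.ff).union (fin X g)).subset fun E c => by_contra fun k => c.2 ?_
    rw [mem_union, not_or, mem_ofPred, mem_ofPred, not_not, not_not, pq_ord] at k
    have := hg (pq E)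
    rw [k.1, k.2] at this
    exact_mod_cast (by simpa using this.symm : (cz s y (pq E) : ℝ) = 0)
  · have fT : (pq '' {E : X.PrimeDiv | c E ≠ 0 ∧ E.1 ∈ W ∧ Tv s y (pq E)}).Finite :=
      (hc.subset fun _ a => a.1).image _
    obtain ⟨G, G0, hG⟩ := Gl.eqn r (Function.extend pq c 0) fT.toFinset fun P hP => by
      obtain ⟨E, a, rfl⟩ := fT.mem_toFinset.1 hP
      exact tp E a.2.1 a.2.2
    refine ⟨G, G0, fun E a b => ?_⟩
    by_cases q : pq E ∈ fT.toFinset
    · rw [(hG _ (tp E a b)).1 q, C3.F65.pq_inj.extend_apply]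
    · rw [(hG _ (tp E a b)).2 q]
      exact (by_contra fun z => q (fT.mem_toFinset.2 ⟨E, ⟨z, a, b⟩, rfl⟩) : c E = 0).symm
  · have z : ∀ j, (pq E).ord (y j) = 0 := fun j => b _ _ (mem_hm s y j)
      (Fin.append_right s y j ▸ r.ind.ne_zero (Fin.natAdd c j))
    rw [cz, kt (c + ρ) X.K _ _ r (tp E a b)]
    simp [z]

end Vale.Agent.P283R.Pq
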