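import Vale.Agent.P283R.Pq.St

/-!
# P283R, block PQ: complexity one
-/

open Set MvPolynomial

noncomputable section

namespace Vale.Agent.P283R.Pq

open Vale.Agent.P287D Vale.Agent.P283M Vale.Agent.P283R.To

namespace O39

/-- the pages of the line are points -/
theorem lin (p : Pg 1) (hp : Prime p.l) :
    ∃ a b : ℂ, a ≠ 0 ∧ p.l = C a * (X 0 - C b) := by
  let e := uniqueAlgEquiv ℂ (Fin 1)
  have i : Irreducible (e p.l) := (MulEquiv.irreducible_iff e.toMulEquiv).2 hp.irreducible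
  have d := IsAlgClosed.degree_eq_one_of_irreducible ℂ i
  have k := Polynomial.eq_X_add_C_of_degree_eq_one d
  have a0 : (e p.l).leadingCoeff ≠ 0 := Polynomial.leadingCoeff_ne_zero.2 i.ne_zero
  refine ⟨_, -(e p.l).coeff 0 / (e p.l).leadingCoeff, a0, e.injective ?_⟩
  have c : ∀ a, e (C a) = Polynomial.C a := fun a => e.commutes a
  have x : e (X 0) = Polynomial.X := by simp [e, uniqueAlgEquiv]
  rw [map_mul, map_sub, c, c, x, mul_sub, ← Polynomial.C_mul, mul_div_cancel₀ _ a0,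
    Polynomial.C_neg, sub_neg_eq_add]
  exact k

end O39

/-- **ONER** -/
theorem oner39 : ONER := fun pol K _ _ s P hs => by
  classical
  obtain ⟨h1, h2, -⟩ := pol 1
  choose a b a0 e using fun p : Pg 1 => O39.lin p (h1 p).1
  have n0 : ∀ c : ℂ, s 0 - algebraMap ℂ K c ≠ 0 := fun c z =>
    hs.transcendental 0 (sub_eq_zero.1 z ▸ isAlgebraic_algebraMap c)
  have o : ∀ p, P.ord (lam s p) = P.ord (s 0 - algebraMap ℂ K (b p)) := fun p => by
    rw [lam, e, map_mul, map_sub, aeval_C, aeval_C, aeval_X, ← Algebra.smul_def,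
      Pl.ord_smul _ (a0 p)]
  have dg : ∀ p : Pg 1, p.dg = 1 := fun p => le_antisymm (by
    rw [Pg.dg, e]
    refine (totalDegree_mul _ _).trans ?_
    rw [totalDegree_C, zero_add]
    refine (totalDegree_sub _ _).trans ?_
    simp) (h1 p).2
  rcases lt_or_ge (P.ord (s 0)) 0 with n | n
  · have k : ∀ c : ℂ, P.ord (s 0 - algebraMap ℂ K c) = P.ord (s 0) := fun c => by
      have s0 : s 0 ≠ 0 := hs.ne_zero 0
      rcases eq_or_ne c 0 with rfl | c0
      · simp
      have c1 : algebraMap ℂ K c ≠ 0 := (_root_.map_ne_zero _).2 c0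
      have k1 : min (P.ord (s 0)) (P.ord (-algebraMap ℂ K c)) ≤ P.ord (s 0 + -algebraMap ℂ K c) :=
        P297Z.Pl.min_ord_le_add P.toPlace s0 (neg_ne_zero.2 c1)
          (by rw [← sub_eq_add_neg]; exact n0 c)
      have k2 : min (P.ord (s 0 - algebraMap ℂ K c)) (P.ord (algebraMap ℂ K c)) ≤
          P.ord (s 0 - algebraMap ℂ K c + algebraMap ℂ K c) :=
        P297Z.Pl.min_ord_le_add P.toPlace (n0 c) c1 (by rwa [sub_add_cancel])
      rw [← map_neg, P.ord_const, map_neg, ← sub_eq_add_neg] at k1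
      rw [P.ord_const, sub_add_cancel] at k2
      omega
    have m : mu s P none = -P.ord (s 0) := by
      have := k (-1)
      rw [map_neg, map_one, sub_neg_eq_add, add_comm] at this
      simp [mu, this]
    refine .inr ⟨none, by omega, fun p => ?_⟩
    rw [o, k, m]
    simp [od, dg]
  by_cases z : Hz s P
  · exact .inl z
  have r : ∀ c : ℂ, s 0 - algebraMap ℂ K c ∈ P.ring := fun c => sub_mem (Cb.mem_ord n) (P.con c)
  have nn : ∀ p, 0 ≤ P.ord (lam s p) := fun p => o p ▸ P297Z.Pl.ord_nonneg_of_mem _ (r _)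
  obtain ⟨p, hp⟩ := not_forall.1 z
  have p0 : 0 < P.ord (lam s p) := (nn p).lt_of_ne' hp
  refine .inr ⟨some p, p0, fun p' => ?_⟩
  by_cases c : p' = p
  · simp [c, od, mu]
  rw [od, Finsupp.single_eq_of_ne (Ne.symm c), mul_zero]
  by_contra w
  have w0 := (nn p').lt_of_ne' w
  rw [o] at p0 w0
  have m := (Cb.mx_iff.2 (.inr p0)).sub (Cb.mx_iff.2 (.inr w0))
  rw [sub_sub_sub_cancel_left, ← map_sub, Cb.mx_iff, P.ord_const] at m
  have bb : b p' = b p := sub_eq_zero.1 ((_root_.map_eq_zero _).1 (m.resolve_right (lt_irrefl _)))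
  refine c (h2 _ _ ⟨C (a p / a p'), ?_⟩)
  rw [e p, e p', bb, mul_right_comm, ← C_mul, mul_div_cancel₀ _ (a0 p')]

end Vale.Agent.P283R.Pq
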