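import Vale.Agent.P283R.Pq.St
import Vale.Agent.P283R.Pq.Uf60

/-!
# P283R, block PQ: the clause of the text
-/

open Set MvPolynomial

noncomputable section

namespace Vale.Agent.P283R.Pq

open Vale.Agent.P287D Vale.Agent.P283M Vale.Agent.P283R.To

namespace O24

variable {c : ℕ}

/-- the form of degree `n` -/
def Hh (n : ℕ) (f : MvPolynomial (Fin c) ℂ) : MvPolynomial (Fin (c + 1)) ℂ :=
  ∑ k ∈ Finset.range (n + 1), X 0 ^ (n - k) * rename Fin.succ (homogeneousComponent k f)

theorem hh_hom (n : ℕ) (f : MvPolynomial (Fin c) ℂ) : (Hh n f).IsHomogeneous n :=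
  IsHomogeneous.sum _ _ _ fun k hk => by
    have := (isHomogeneous_X_pow (R := ℂ) (0 : Fin (c + 1)) (n - k)).mul
      ((homogeneousComponent_isHomogeneous k f).rename_isHomogeneous (f := Fin.succ))
    rwa [Nat.sub_add_cancel (Nat.lt_succ_iff.1 (Finset.mem_range.1 hk))] at this

variable {B : Type} [CommRing B] [Algebra ℂ B]

theorem hh_ev (n : ℕ) (f : MvPolynomial (Fin c) ℂ) (a : B) (g : Fin c → B) :
    aeval (Fin.cons a g : Fin (c + 1) → B) (Hh n f) =
      ∑ k ∈ Finset.range (n + 1), a ^ (n - k) * aeval g (homogeneousComponent k f) := by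
  simp only [Hh, map_sum, map_mul, map_pow, aeval_X, aeval_rename, Fin.cons_zero]
  rfl

theorem sc {φ : MvPolynomial (Fin c) ℂ} {k : ℕ} (hφ : φ.IsHomogeneous k) (a : B) (g : Fin c → B) :
    aeval (fun i => g i * a) φ = a ^ k * aeval g φ := by
  rw [aeval_def, aeval_def, eval₂_eq, eval₂_eq, Finset.mul_sum]
  refine Finset.sum_congr rfl fun d hd => ?_
  simp only [mul_pow, Finset.prod_mul_distrib, Finset.prod_pow_eq_pow_sum]
  rw [← hφ.degree_eq_sum_deg_support hd]
  ring

theorem hh_sc (f : MvPolynomial (Fin c) ℂ) (a : B) (g : Fin c → B) :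
    aeval (Fin.cons a fun i => g i * a : Fin (c + 1) → B) (Hh f.totalDegree f) =
      aeval g f * a ^ f.totalDegree := by
  rw [hh_ev]
  conv_rhs => rw [← sum_homogeneousComponent f, map_sum, Finset.sum_mul]
  refine Finset.sum_congr rfl fun k hk => ?_
  rw [sc (homogeneousComponent_isHomogeneous k f), ← mul_assoc, ← pow_add,
    Nat.sub_add_cancel (Nat.lt_succ_iff.1 (Finset.mem_range.1 hk)), mul_comm,
    sum_homogeneousComponent]

theorem hh_one (f : MvPolynomial (Fin c) ℂ) (g : Fin c → B) :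
    aeval (Fin.cons 1 g : Fin (c + 1) → B) (Hh f.totalDegree f) = aeval g f := by
  simpa using hh_sc f 1 g

theorem hh_nd {f : MvPolynomial (Fin c) ℂ} (h : f ≠ 0) : ¬ X 0 ∣ Hh f.totalDegree f := by
  rintro ⟨g, e⟩
  have e1 := hh_ev f.totalDegree f (0 : MvPolynomial (Fin c) ℂ) X
  rw [e, map_mul, aeval_X, Fin.cons_zero, zero_mul, Finset.sum_range_succ, Nat.sub_self, pow_zero,
    one_mul, Finset.sum_eq_zero fun k hk => by
      rw [zero_pow (Nat.sub_ne_zero_of_lt (Finset.mem_range.1 hk)), zero_mul], zero_add,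
    aeval_X_left_apply] at e1
  obtain ⟨d, hd, e2⟩ := Finset.exists_mem_eq_sup f.support (support_nonempty.2 h)
    fun s => s.sum fun _ e => e
  have e3 := coeff_homogeneousComponent f.totalDegree f d
  rw [← e1, if_pos (by rw [totalDegree, e2]; rfl), coeff_zero] at e3
  exact mem_support_iff.1 hd e3.symm

/-- the cone in the coordinates of the chart -/
def Ph (c : ℕ) : MvPolynomial (Fin (c + 1)) ℂ →ₐ[ℂ] Polynomial (MvPolynomial (Fin c) ℂ) :=
  aeval (Fin.cons Polynomial.X fun i => Polynomial.C (X i) * Polynomial.X)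

theorem ph_inj : Function.Injective (Ph c) := by
  let L := FractionRing (MvPolynomial (Fin (c + 1)) ℂ)
  let ι := IsScalarTower.toAlgHom ℂ (MvPolynomial (Fin (c + 1)) ℂ) L
  have hι : Function.Injective ι := IsFractionRing.injective _ L
  have x0 : ι (X 0) ≠ 0 := (map_ne_zero_iff _ hι).2 (X_ne_zero _)
  let ψ : Polynomial (MvPolynomial (Fin c) ℂ) →ₐ[ℂ] L := Polynomial.eval₂AlgHom
    (aeval fun i => ι (X i.succ) / ι (X 0)) (ι (X 0)) fun _ => Commute.all _ _
  have e : ψ.comp (Ph c) = ι := algHom_ext fun i => by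
    refine Fin.cases ?_ (fun i => ?_) i
    · simp [ψ, Ph]
    · simp only [ψ, Ph, AlgHom.comp_apply, aeval_X, Fin.cons_succ, map_mul,
        Polynomial.eval₂AlgHom_apply, Polynomial.eval₂_C, Polynomial.eval₂_X, RingHom.coe_coe]
      exact div_mul_cancel₀ _ x0
  exact Function.Injective.of_comp (f := ψ) (by rw [← AlgHom.coe_comp, e]; exact hι)

theorem ph_hh (f : MvPolynomial (Fin c) ℂ) :
    Ph c (Hh f.totalDegree f) = Polynomial.C f * Polynomial.X ^ f.totalDegree := by
  rw [Ph, hh_sc]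
  congr 1
  exact (comp_aeval_apply X (Polynomial.CAlgHom (R := ℂ)) f).symm.trans
    (by rw [aeval_X_left_apply]; rfl)

theorem cop {l : MvPolynomial (Fin (c + 1)) ℂ} (hl : Prime l) {f f' : MvPolynomial (Fin c) ℂ}
    (hf : Prime f) (nd : ¬ f ∣ f') (h : l ∣ Hh f.totalDegree f) (h' : l ∣ Hh f'.totalDegree f') :
    l ∣ X 0 := by
  have a := map_dvd (Ph c) h
  have a' := map_dvd (Ph c) h'
  rw [ph_hh] at a a'
  rcases (Polynomial.prime_C_iff.2 hf).left_dvd_or_dvd_right_of_dvd_mul a with b | b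
  · have := map_dvd (Polynomial.evalRingHom 1) (b.trans a')
    exact (nd (by simpa using this)).elim
  · obtain ⟨i, -, u, hu⟩ := (dvd_prime_pow Polynomial.prime_X _).1 b
    obtain ⟨r, hr, e⟩ := Polynomial.isUnit_iff.1 u.isUnit
    obtain ⟨t, -, rfl⟩ := U60.unit_c hr
    refine hl.dvd_of_dvd_pow (n := i) ⟨C t, ph_inj ?_⟩
    rw [map_mul, map_pow, ← algebraMap_eq, AlgHom.commutes, Ph, aeval_X, Fin.cons_zero, ← hu, ← e]
    rfl

end O24

open O24

theorem ovhr24 : OVHR := by
  classical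
  intro pol c K _ _ s P l hs hl H
  obtain ⟨p1, p2, -, -⟩ := pol c
  by_cases hz : Hz s P
  · exact .inl hz
  obtain ⟨p, hp⟩ : ∃ p, P.ord (lam s p) ≠ 0 := not_forall.1 hz
  have ev : ∀ p : Pg c, aeval (Fin.cons 1 s : Fin (c + 1) → K) (Hh p.dg p.l) = lam s p :=
    fun p => hh_one p.l s
  refine .inr ?_
  by_cases h0 : l ∣ X 0
  · have as : ∀ g, l ∣ g → X 0 ∣ g := fun g hg =>
      ((hl.irreducible.associated_of_dvd X_prime.irreducible h0).symm.dvd).trans hg
    have c0 : Nonempty (Fin c) := by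
      by_contra hn
      have := not_nonempty_iff.1 hn
      have := (isHomogeneous_of_isEmpty _ _ p.l).totalDegree_le
      have := (p1 p).2
      rw [Pg.dg] at this
      omega
    let L : ℂ → MvPolynomial (Fin (c + 1)) ℂ := fun a => C a * X 0 + ∑ i : Fin c, X i.succ
    have L1 : ∀ a, (L a).IsHomogeneous 1 := fun a => (isHomogeneous_C_mul_X a 0).add
      (IsHomogeneous.sum _ _ _ fun i _ => isHomogeneous_X ℂ _)
    have L2 : ∀ a, ¬ l ∣ L a := fun a h => by
      obtain ⟨g, e⟩ := as _ h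
      have := congrArg (aeval (Fin.cons 0 fun _ => 1 : Fin (c + 1) → ℂ)) e
      simp [L] at this
      exact (c0.some.pos.ne' this).elim
    have L3 : ∀ a, aeval (Fin.cons 1 s : Fin (c + 1) → K) (L a) = algebraMap ℂ K a + ∑ i, s i :=
      fun a => by simp [L]
    have L4 : ∀ a, algebraMap ℂ K a + ∑ i, s i ≠ 0 := fun a h => by
      have h1 : (C a + ∑ i, X i : MvPolynomial (Fin c) ℂ) = 0 :=
        algebraicIndependent_iff.1 hs _ (by simpa using h)
      have h2 := congrArg (eval fun _ => (0 : ℂ)) h1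
      have h3 := congrArg (eval fun _ => (1 : ℂ)) h1
      simp at h2 h3
      rw [h2, zero_add, Nat.cast_eq_zero] at h3
      exact c0.some.pos.ne' h3
    have key : ∀ p : Pg c, P.ord (lam s p) = p.dg * P.ord (1 + ∑ i, s i) := fun p => by
      have := H p.dg _ (L 1 ^ p.dg) (hh_hom _ p.l) (by simpa using (L1 1).pow p.dg)
        (fun h => hh_nd (p1 p).1.ne_zero (as _ h)) fun h => L2 1 (hl.dvd_of_dvd_pow h)
      rwa [ev, map_pow, L3, map_one, P.ord_pow] at this
    refine ⟨none, ?_, fun p => ?_⟩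
    · have e := H 1 _ _ (L1 1) (L1 0) (L2 1) (L2 0)
      have a1 := L4 1
      have a0 := L4 0
      rw [L3, L3, map_one, map_zero, zero_add] at e
      rw [map_one] at a1
      rw [map_zero, zero_add] at a0
      have n0 : P.ord (1 + ∑ i, s i) ≠ 0 := fun z => hp (by rw [key, z, mul_zero])
      by_contra hn
      have b : 0 < P.ord (∑ i, s i) := by
        simp only [mu] at hn
        omega
      exact n0 ((P.ord_add_eq_of_lt one_ne_zero a0 (by rwa [P.ord_one])).trans P.ord_one)
    · rw [key]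
      simp [mu, od]
      ring
  · have z : ∀ p : Pg c, ¬ l ∣ Hh p.dg p.l → P.ord (lam s p) = 0 := fun p h => by
      have := H p.dg _ (X 0 ^ p.dg) (hh_hom _ p.l) (isHomogeneous_X_pow _ _) h
        fun h => h0 (hl.dvd_of_dvd_pow h)
      rw [ev] at this
      simpa using this
    have d1 : l ∣ Hh p.dg p.l := by_contra fun h => hp (z p h)
    have z' : ∀ p' : Pg c, p' ≠ p → P.ord (lam s p') = 0 := fun p' h => z p' fun d2 =>
      h0 (cop hl (p1 p').1 (fun d => h (p2 _ _ d)) d2 d1)
    refine ⟨some p, ?_, fun p' => ?_⟩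
    · have e := H p.dg (Hh p.dg p.l + X 0 ^ p.dg) (X 0 ^ p.dg)
        ((hh_hom _ p.l).add (isHomogeneous_X_pow _ _)) (isHomogeneous_X_pow _ _)
        (fun h => h0 (hl.dvd_of_dvd_pow ((dvd_add_right d1).1 h)))
        fun h => h0 (hl.dvd_of_dvd_pow h)
      rw [map_add, ev] at e
      simp only [map_pow, aeval_X, Fin.cons_zero, one_pow] at e
      by_contra hn
      simp only [mu] at hn
      have l0 : lam s p ≠ 0 := U60.aev_ne hs (p1 p).1.ne_zero
      have := P.ord_add_eq_of_lt l0 one_ne_zero (by rw [P.ord_one]; omega)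
      rw [e, P.ord_one] at this
      exact hp this.symm
    · by_cases h : p' = p
      · subst h
        simp [mu, od]
      · simp [od, z' p' h, h]

end Vale.Agent.P283R.Pq
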