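import Vale.Agent.P283R.Pq.St

/-!
# P283R, block PQ: from the text to the family
-/

open Set CategoryTheory AlgebraicGeometry

noncomputable section

namespace Vale.Agent.P283R.Pq

open Sl Sl.Var Vale.Agent.P283R.Gl

theorem ind_left96 {K : Type} [Field K] [Algebra ℂ K] {c r : ℕ} {s : Fin c → K} {y : Fin r → K}
    (h : AlgebraicIndependent ℂ (Fin.append s y)) : AlgebraicIndependent ℂ s := by
  have := h.comp (Fin.castAdd r) (Fin.castAdd_injective c r)
  rwa [show Fin.append s y ∘ Fin.castAdd r = s from funext (Fin.append_left s y)] at this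

/-- **TXTR** -/
theorem txtr96 : TXTR := by
  intro o e F X W x hx h
  rcases h with ⟨c, r, s, y, a, b, v⟩ | ⟨r, s, y, a, b⟩
  · refine ⟨c, r, s, y, F c r X.o W s y x ⟨a, fun x hx => ?_⟩ hx fun E hE => ?_⟩
    · obtain ⟨U, c, d, e, k⟩ := b x hx
      refine ⟨U, c, d, e, fun g hg => Submodule.span_mono ?_ (k g hg)⟩
      rintro _ ⟨i, φ, j, m, l⟩
      exact ⟨i, m, φ, j, l⟩
    · obtain ⟨l, l1, l2⟩ := v E hE
      exact o c _ s _ l (ind_left96 a) l1 fun n g h i j k m =>
        (pq_ord (X := X.o) E _).symm.trans ((l2 n g h i j k m).trans (pq_ord (X := X.o) E _))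
  · have a' : AlgebraicIndependent ℂ (Fin.append (fun _ : Fin 1 => s) y) := by
      rw [Fin.append_left_eq_cons]
      exact AlgebraicIndependent.comp a _ (Fin.cast_injective _)
    refine ⟨1, r, fun _ => s, y, F 1 r X.o W _ y x ⟨a', fun x hx => ?_⟩ hx
      fun E _ => e _ _ _ (ind_left96 a')⟩
    obtain ⟨U, c, d, e, k⟩ := b x hx
    refine ⟨U, c, d, e, fun g hg => Submodule.span_mono ?_ (k g hg)⟩
    rintro _ ⟨i, φ, j, m, l⟩
    exact ⟨i, m, φ, by rwa [Set.range_const], l⟩

end Vale.Agent.P283R.Pq
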