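import Vale.Agent.P283R.C3.Conv
import Vale.Agent.P283R.C3.Kt
import Vale.Agent.P283R.Pq.Fac60
import Vale.Agent.P283R.Pq.Gp67
import Vale.Agent.P283R.Pq.Hg68
import Vale.Agent.P283R.Pq.Hw45
import Vale.Agent.P283R.Pq.Lau80
import Vale.Agent.P283R.Pq.Mis29
import Vale.Agent.P283R.Pq.One39
import Vale.Agent.P283R.Pq.Ovh24
import Vale.Agent.P283R.Pq.Txt96

/-!
# P283R, block PQ: the closed rows
-/

namespace Vale.Agent.P283R.Pq

/-- **POL** -/
theorem pol : POL := pol60

/-- **FAC** -/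
theorem fac : FAC := fac60

/-- **SUMS** -/
theorem sums : SUMS := sums80

/-- **CZ** -/
theorem czr : CZ := czr80 pol fac

/-- **GP** -/
theorem gp : GP := gpr67 pol fac

/-- **MIS** -/
theorem mis : MIS := misr29 pol

/-- **FM** -/
theorem fm : FM := fmr29 czr C3.kt rat80 inv80 lau80 mis

/-- **HWS** -/
theorem hws : HWS := hwr45 sums czr C3.conv

/-- **TXT** -/
theorem txt : TXT := txtr96 (ovhr24 pol) (oner39 pol) fm

end Vale.Agent.P283R.Pq
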