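import Vale.Agent.P283R.C3.Su10b
import Vale.Agent.P283R.Pq.Lau85
import Vale.Agent.P283R.Br.Glue
import Vale.Agent.P283M.Br.Crv

/-!
# P283R, block PQ: an invariant affine neighbourhood in the base
-/

set_option linter.all false

open Set CategoryTheory AlgebraicGeometry

noncomputable section

namespace Vale.Agent.P283R.Pq

namespace S10

section

open Vale.Agent.P289 (Pt)
open Vale.Agent.P283M.Stm Vale.Agent.P283M.Stm.Var Vale.Agent.P283M Vale.Agent.P283M.Br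
open Vale.Agent.P283R.To Vale.Agent.P283R.Sch Vale.Agent.P283R.Gl Vale.Agent.P283R.Tor
open Vale.Agent.P283R.C3.S10

section

variable {K : Type} [Field K] [Algebra ℂ K] {c r : ℕ} {s : Fin c → K} {y : Fin r → K}

theorem gr_hm (y0 : ∀ j, y j ≠ 0) : Gr (Hm s y) where
  zero _ := Sm85.hm_zero
  one := L85.hm_one
  add _ _ a _ b := Sm85.hm_add a b
  smul _ c _ a := Sm85.hm_smul c a
  mul _ _ _ a _ b := L85.hm_mul y0 a b
  inv _ _ a := L85.hm_inv a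

theorem tr_hm (h : D.Rat (fr s y)) (t : Fin r → ℂˣ) :
    ∃ θ : K ≃ₐ[ℂ] K, ∀ u, ∀ a ∈ Hm s y u, θ a = chi u t • a := by
  obtain ⟨θ, hθ⟩ := exists_tr h (Fin.append 1 t)
  have e : ∀ (a : Fin c → ℤ) (u : Fin r → ℤ),
      θ (mon s a * mon y u) = chi u t • (mon s a * mon y u) := fun a u => by
    have := hθ (Fin.append a u)
    have e1 : mon (fr s y) (Fin.append a u) = mon s a * mon y u := by
      simp only [mon, fr, Fin.prod_univ_add, Fin.append_left, Fin.append_right]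
    have e2 : chi (Fin.append a u : Fin (c + r) → ℤ) (Fin.append 1 t) = chi u t := by
      change ((∏ i, _ : ℂˣ) : ℂ) = ((∏ i, _ : ℂˣ) : ℂ)
      simp only [Fin.prod_univ_add, Fin.append_left, Fin.append_right, Pi.one_apply, one_zpow,
        Finset.prod_const_one, one_mul]
    rwa [e1, e2] at this
  have m0 : ∀ {k} (z : Fin k → K), mon z 0 = 1 := fun z => by simp [mon]
  have es : ∀ i, θ (s i) = s i := fun i => by
    have := e (Pi.single i 1) 0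
    have e2 : chi (0 : Fin r → ℤ) t = 1 := by
      change ((∏ i, _ : ℂˣ) : ℂ) = 1
      simp
    have e3 : mon s (Pi.single i 1) = s i := by
      rw [mon, Finset.prod_eq_single i (fun j _ z => by rw [Pi.single_eq_of_ne z, zpow_zero])
        fun z => (z (Finset.mem_univ _)).elim, Pi.single_eq_same, zpow_one]
    rwa [e2, e3, m0, mul_one, one_smul] at this
  refine ⟨θ, ?_⟩
  rintro u _ ⟨φ, hφ, rfl⟩
  have e1 : θ φ = φ := by
    induction hφ using IntermediateField.adjoin_induction with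
    | mem a ha => exact let ⟨i, e⟩ := ha; e ▸ es i
    | algebraMap c => exact θ.commutes c
    | add a b _ _ ha hb => rw [map_add, ha, hb]
    | inv a _ ha => rw [map_inv₀, ha]
    | mul a b _ _ ha hb => rw [map_mul, ha, hb]
  have := e 0 u
  rw [m0, one_mul] at this
  rw [map_mul, e1, this, mul_smul_comm]

end

variable {X Z : Var} {r : ℕ} {H : (Fin r → ℤ) → Set X.K} {f : X.X ⟶ Z.X}

theorem pq_inj : Function.Injective (pq (X := X)) := fun E E' e =>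
  Subtype.ext (Crv.dom_unique (dom_S (pq_is E).dom) (dom_S (e ▸ (pq_is E').dom)))

/-- the prime divisors of a graded open set -/
theorem fa_hm {c : ℕ} {s : Fin c → X.K} {y : Fin r → X.K} {W : X.X.Opens} {x : Pt X.X}
    (h : CoY W s y) (hx : x ∈ W) : Fa (Hm s y) W := by
  classical
  obtain ⟨a, tp⟩ := rat85 c r X W s y x h hx
  refine ⟨inv85 c r X W s y x h hx, lau85 c r X W s y x h hx, fun k hk => ?_⟩
  have fT : (pq '' {E : X.PrimeDiv | k E ≠ 0 ∧ E.1 ∈ W ∧ Tv s y (pq E)}).Finite :=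
    (hk.subset fun _ a => a.1).image _
  obtain ⟨G, G0, hG⟩ := Gl.eqn a (Function.extend pq k 0) fT.toFinset fun P hP => by
    obtain ⟨E, a, rfl⟩ := fT.mem_toFinset.1 hP
    exact tp E a.2.1 a.2.2
  refine ⟨G, G0, fun E a b => ?_⟩
  by_cases q : pq E ∈ fT.toFinset
  · rw [(hG _ (tp E a b)).1 q, pq_inj.extend_apply]
  · rw [(hG _ (tp E a b)).2 q]
    exact (by_contra fun z => q (fT.mem_toFinset.2 ⟨E, ⟨z, a, b⟩, rfl⟩) : k E = 0).symm

/-- **an invariant affine neighbourhood** -/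
theorem sumi_le (gr : Gr H) (tr : Tr H)
    (fa : ∀ (W : X.X.Opens) (x : Pt X.X), Co H W → x ∈ W → Fa H W) {W : Z.X.Opens} {z : Pt Z.X}
    (hf : Contraction f) (zW : z ∈ W) (ht : Co H (f ⁻¹ᵁ W)) :
    ∃ V ≤ W, IsAffineOpen V ∧ z ∈ V ∧ Co H (f ⁻¹ᵁ V) := by
  classical
  obtain ⟨t, bt, A⟩ := amz Z
  obtain ⟨p, p1, p2⟩ := pul' X Z f hf
  have p0 : ∀ {a}, a ≠ 0 → p a ≠ 0 := fun h => (map_ne_zero p).2 h
  have pu : ∀ (x : Pt X.X) a, UnAt a (x.map f) → UnAt (p a) x := fun x a h =>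
    ⟨p0 h.1, (p1 x a h.2.1).1, map_inv₀ p a ▸ (p1 x _ h.2.2).1⟩
  have pg : ∀ (x : Pt X.X) g, GenAt t g (x.map f) → GenAt (t.image p) (p g) x := fun x g h =>
    ⟨Finset.mem_image_of_mem _ h.1, p0 h.2.1, fun b hb => by
      obtain ⟨c, hc, rfl⟩ := Finset.mem_image.1 hb
      exact map_div₀ p c g ▸ (p1 x _ (h.2.2 c hc)).1⟩
  have pe : ∀ a g k, p (a / g ^ k) = p a / p g ^ k := fun a g k => by rw [map_div₀, map_pow]
  have ne : ∀ O : Z.X.Opens, Nonempty O → Nonempty ↑(f ⁻¹ᵁ O) := fun O ⟨q⟩ =>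
    let ⟨x, hx⟩ := hf.2.2.1.surj q.1
    ⟨⟨x, show f x ∈ O from hx ▸ q.2⟩⟩
  have dn : ∀ (O : Z.X.Opens) [Nonempty O] c, (∀ x ∈ f ⁻¹ᵁ O, RegAt c x) →
      ∃ b : Γ(Z.X, O), p (P289.H594.secK O b) = c := fun O _ c h => by
    have := ne O ‹_›
    have := hf.2.2.2 O
    obtain ⟨b, hb⟩ := Am.exists_pl f O (Am.mem_reg.2 h)
    exact ⟨b, (p2 O b).trans hb⟩
  obtain ⟨k, a, U, k0, hU, zU, UW, sa, eU⟩ := A W z zW
  obtain ⟨x₀, rfl⟩ := hf.2.2.1.surj z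
  have nv : ∀ (x : Pt X.X) c, (∀ g, GenAt t g (x.map f) → RegAt (c / g ^ k) (x.map f)) →
      (Nv (t.image p) k (p c) x ↔ Nv t k c (x.map f)) := fun x c h => by
    obtain ⟨g, hg⟩ := bt (Pt.map f x) trivial
    rw [nv_iff hg, nv_iff (pg x g hg), ← pe]
    exact ⟨(p1 x _ (h g hg)).2, pu x _⟩
  have sp : Sct (t.image p) k (p a) (f ⁻¹ᵁ W) := fun x _ b hb => by
    obtain ⟨g, hg⟩ := bt (Pt.map f x) trivial
    rw [chg (pg x g hg).2.1, ← pe]
    exact reg_mul (p1 x _ (sa _ trivial g hg)).1 (reg_pow (hb.2.2 _ (pg x g hg).1) k)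
  obtain ⟨s, s1, s2, eG, s3⟩ := mse (x := x₀) gr ht (fa _ x₀ ht zW)
    (fun x _ => let ⟨g, hg⟩ := bt (Pt.map f x) trivial; ⟨_, pg x g hg⟩) sp zW
    ((nv x₀ a (sa _ trivial)).2 ((eU _).1 zU))
  have : Nonempty U := ⟨⟨_, zU⟩⟩
  obtain ⟨b₀, hb₀⟩ := dn U (s / p a) fun x hx => by
    obtain ⟨g, hg⟩ := bt (Pt.map f x) trivial
    exact reg_div (s1 x (UW hx) _ (pg x g hg)) (pe a g k ▸ pu x _ ((eU _).1 hx g hg))
  have a0 : a ≠ 0 :=
    let ⟨g, hg⟩ := bt (f x₀) trivial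
    (div_ne_zero_iff.1 ((eU _).1 zU g hg).1).1
  obtain ⟨s₀, rfl, e₀⟩ : ∃ s₀, p s₀ = s ∧ P289.H594.secK U b₀ = s₀ / a :=
    ⟨P289.H594.secK U b₀ * a, by rw [map_mul, hb₀, div_mul_cancel₀ _ (p0 a0)],
      (mul_div_cancel_right₀ _ a0).symm⟩
  have s4 : Sct t k s₀ W := fun q hq g hg => by
    let O : Z.X.Opens := W ⊓ ⟨_, open_gen t g⟩
    have : Nonempty O := ⟨⟨q, hq, hg⟩⟩
    obtain ⟨b, hb⟩ := dn O (p (s₀ / g ^ k)) fun x hx => pe s₀ g k ▸ s1 x hx.1 _ (pg x g hx.2)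
    rw [← p.injective hb]
    exact Am.mem_reg.1 (Am.secK_reg O b) q ⟨hq, hg⟩
  let V : Z.X.Opens := ⟨{q | q ∈ W ∧ Nv t k s₀ q}, isOpen_iff_forall_mem_open.2 fun q hq => by
    obtain ⟨g, hg⟩ := bt q trivial
    have u := hq.2 g hg
    exact ⟨(W : Set Z.X) ∩ ({r | GenAt t g r} ∩ {r | RegAt (s₀ / g ^ k)⁻¹ r}), fun r hr =>
      ⟨hr.1, (nv_iff hr.2.1).2 ⟨u.1, s4 r hr.1 g hr.2.1, hr.2.2⟩⟩,
      W.isOpen.inter ((open_gen t g).inter (open_reg _)), hq.1, hg, u.2.2⟩⟩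
  have zV : f x₀ ∈ V := ⟨zW, (nv x₀ s₀ (s4 _ zW)).1 s2⟩
  have tV : Co H (f ⁻¹ᵁ V) := s3 _ fun x =>
    and_congr_right fun c => (nv x s₀ (s4 _ c)).symm
  have : Nonempty V := ⟨⟨_, zV⟩⟩
  have := ne V ‹_›
  have mb : ∀ {O : Z.X.Opens} [Nonempty O] (c : Γ(Z.X, O)) (q : Z.X),
      q ∈ Z.X.basicOpen c ↔ q ∈ O ∧ UnAt (P289.H594.secK O c) q := fun c q =>
    ⟨fun a => ⟨Z.X.basicOpen_le c a, (Am.un_secK c (Z.X.basicOpen_le c a)).2 a⟩,
      fun a => (Am.un_secK c a.1).1 a.2⟩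
  obtain ⟨b, hb⟩ := (Am.reg_iff (U := V) (f := a / s₀)).1 (Am.mem_reg.2 fun q hq =>
    let ⟨g, hg⟩ := bt q trivial
    reg_div (sa q trivial g hg) (hq.2 g hg))
  refine ⟨V, fun _ c => c.1, aff gr tr (b := b) hf tV (fa _ x₀ tV zV) ?_ (by rwa [← p2, hb, map_div₀])
    fun q hq => ?_, zV, tV⟩
  · have : Z.X.basicOpen b = Z.X.basicOpen b₀ := TopologicalSpace.Opens.ext (Set.ext fun q => by
      obtain ⟨g, hg⟩ := bt q trivial
      refine (mb b q).trans (Iff.trans ?_ (mb b₀ q).symm)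
      rw [hb, e₀]
      refine ⟨fun c => ?_, fun c => ?_⟩
      · have u := (un_div (c.1.2 g hg)).1 c.2
        exact ⟨(eU q).2 ((nv_iff hg).2 u), (un_div u).2 (c.1.2 g hg)⟩
      · have u := (un_div ((eU q).1 c.1 g hg)).1 c.2
        exact ⟨⟨UW c.1, (nv_iff hg).2 u⟩, (un_div u).2 ((eU q).1 c.1 g hg)⟩)
    rw [this]
    exact hU.basicOpen b₀
  · obtain ⟨k', a', U', -, hU', qU, UV, sa', eU'⟩ := A V q hq
    have e1 : ∀ g : Z.K, a' ^ k / g ^ (k * k') = (a' / g ^ k') ^ k := fun g => by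
      rw [div_pow, ← pow_mul, mul_comm]
    have e2 : ∀ g : Z.K, s₀ ^ k' / g ^ (k * k') = (s₀ / g ^ k) ^ k' := fun g => by
      rw [div_pow, ← pow_mul]
    obtain ⟨c, hc⟩ := (Am.reg_iff (U := V) (f := a' ^ k / s₀ ^ k')).1 (Am.mem_reg.2 fun r hr =>
      let ⟨g, hg⟩ := bt r trivial
      reg_div (e1 g ▸ reg_pow (sa' r trivial g hg) k) (e2 g ▸ UnAt.pow (hr.2 g hg) k'))
    have : Z.X.basicOpen c = U' := TopologicalSpace.Opens.ext (Set.ext fun r => by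
      obtain ⟨g, hg⟩ := bt r trivial
      refine (mb c r).trans ?_
      rw [hc]
      refine ⟨fun w => (eU' r).2 ((nv_iff hg).2 ?_), fun w => ⟨UV w, ?_⟩⟩
      · have u := (un_div (e2 g ▸ UnAt.pow (w.1.2 g hg) k')).1 w.2
        obtain ⟨j, rfl⟩ := Nat.exists_eq_succ_of_ne_zero k0.ne'
        rw [e1, pow_succ'] at u
        exact P270L.S.un_of_mul (sa' r trivial g hg) (reg_pow (sa' r trivial g hg) j) u
      · exact (un_div (e2 g ▸ UnAt.pow ((UV w).2 g hg) k')).2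
          (e1 g ▸ UnAt.pow ((eU' r).1 w g hg) k))
    exact ⟨c, this ▸ hU', this ▸ qU⟩

/-- the invariant affine neighbourhood for a frame -/
theorem sum_hm {c : ℕ} {s : Fin c → X.K} {y : Fin r → X.K} {W : Z.X.Opens} {z : Pt Z.X}
    (hf : Contraction f) (zW : z ∈ W) (h : CoY (f ⁻¹ᵁ W) s y) :
    ∃ V ≤ W, IsAffineOpen V ∧ z ∈ V ∧ CoY (f ⁻¹ᵁ V) s y := by
  obtain ⟨x, hx⟩ := hf.2.2.1.surj z
  obtain ⟨V, v0, v1, v2, v3⟩ := sumi_le (gr_hm (I85.y_ne h.1))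
    (tr_hm (rat85 c r X _ s y x h (show f x ∈ W from hx ▸ zW)).1)
    (fun U x k e => fa_hm ⟨h.1, k⟩ e) hf zW h.2
  exact ⟨V, v0, v1, v2, h.1, v3⟩

end

open Sl Sl.Var

variable {X Z : Sl.Var} {f : X.X ⟶ Z.X} {z : Pt Z.X} {W : Z.X.Opens}

theorem co_iff {c r : ℕ} {s : Fin c → X.K} {y : Fin r → X.K} {W : X.X.Opens} :
    CoY (X := X.o) W s y ↔ Independent (Fin.append s y : Fin (c + r) → X.K) ∧
    ∀ x : Pt X.X, x.In W → ∃ U ≤ W, IsAffineOpen U ∧ x.In U ∧ GradedOver s y (regOn U) := by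
  refine and_congr_right fun _ => forall₂_congr fun x _ => exists_congr fun U =>
    and_congr_right fun _ => and_congr_right fun _ => and_congr_right fun _ =>
      forall₂_congr fun g _ => ?_
  refine ⟨fun k => Submodule.span_mono ?_ k, fun k => Submodule.span_mono ?_ k⟩
  · rintro _ ⟨i, m, φ, j, l⟩
    exact ⟨i, φ, j, m, l⟩
  · rintro _ ⟨i, φ, j, m, l⟩
    exact ⟨i, m, φ, j, l⟩

theorem sum_pq (hf : Contraction f) (zW : z.In W) (h : ProjectiveQuotient (pre f W)) :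
    ∃ V ≤ W, IsAffineOpen V ∧ z.In V ∧ ProjectiveQuotient (pre f V) := by
  obtain ⟨c, r, s, y, a, b, v⟩ := h
  obtain ⟨V, v0, v1, v2, v3⟩ := sum_hm (X := X.o) (Z := Z.o) hf zW (co_iff.2 ⟨a, b⟩)
  exact ⟨V, v0, v1, v2, c, r, s, y, a, (co_iff.1 v3).2, fun E e => v E (v0 e)⟩

theorem go_iff {r : ℕ} {s : X.K} {y : Fin r → X.K} {A : Set X.K} :
    GradedOver (fun _ : Fin 1 => s) y A ↔ GradedBy s y A := by
  rw [GradedOver, Set.range_const]
  rfl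

theorem sum_c1 {r : ℕ} (hf : Contraction f) (zW : z.In W) (h : ComplexityOne (pre f W) r) :
    ∃ V ≤ W, IsAffineOpen V ∧ z.In V ∧ ComplexityOne (pre f V) r := by
  obtain ⟨s, y, a, b⟩ := h
  have a' : AlgebraicIndependent ℂ (Fin.append (fun _ : Fin 1 => s) y) := by
    rw [Fin.append_left_eq_cons]
    exact AlgebraicIndependent.comp a _ (Fin.cast_injective _)
  obtain ⟨V, v0, v1, v2, v3⟩ := sum_hm (X := X.o) (Z := Z.o) hf zW
    (co_iff.2 ⟨a', by simpa only [go_iff] using b⟩)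
  exact ⟨V, v0, v1, v2, s, y, a, by simpa only [go_iff] using (co_iff.1 v3).2⟩

end S10

open Sl Sl.Var

/-- **an invariant affine neighbourhood** -/
theorem sumi10 {X Z : Sl.Var} {f : X.X ⟶ Z.X} {z : Pt Z.X} {W : Z.X.Opens} (hf : Contraction f)
    (zW : z.In W) (h : ProjectiveQuotient (pre f W) ∨ ∃ r, ComplexityOne (pre f W) r) :
    ∃ V : Z.X.Opens, IsAffineOpen V ∧ z.In V ∧
      (ProjectiveQuotient (pre f V) ∨ ∃ r, ComplexityOne (pre f V) r) := by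
  rcases h with h | ⟨r, h⟩
  · exact let ⟨V, _, a, b, c⟩ := S10.sum_pq hf zW h; ⟨V, a, b, Or.inl c⟩
  · exact let ⟨V, _, a, b, c⟩ := S10.sum_c1 hf zW h; ⟨V, a, b, Or.inr ⟨r, c⟩⟩

end Vale.Agent.P283R.Pq
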