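import Vale.Agent.P283R.Pq.Hg68
import Vale.Agent.P283R.Pq.Fac60
import Vale.Agent.P283R.Pq.Cz80
import Vale.Agent.P283R.Pq.Hw45
import Vale.Agent.P283R.To.Lin

/-!
# P283R, block PQ: special pages, page sums, the weights of Goldman and Tucker
-/

open Set

noncomputable section

namespace Vale.Agent.P283R.Pq

open Vale.Agent.P287D Vale.Agent.P297Z Vale.Agent.P283M Vale.Agent.P283R.To

variable {c ρ : ℕ} {K : Type} [Field K] [Algebra ℂ K] {ι : Type} {s : Fin c → K} {y : Fin ρ → K}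
  {w : ι → Prop} {P : ι → Pl K}

open Classical in
/-- the multiplicity of `R` in the page `r` -/
def am (s : Fin c → K) (R : Pl K) (r : Option (Pg c)) : ℤ := if At s R r then mu s R r else 0

/-- page sums -/
def ps (s : Fin c → K) (P : ι → Pl K) (ζ : ι → ℝ) (r : Option (Pg c)) : ℝ :=
  ∑ᶠ E, ζ E * am s (P E) r

/-- `J` contains the special pages -/
structure Spc (s : Fin c → K) (y : Fin ρ → K) (w : ι → Prop) (P : ι → Pl K)
    (J : Finset (Option (Pg c))) : Prop where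
  inf : none ∈ J
  crd : ∀ i p, p.l ∣ MvPolynomial.X i → some p ∈ J
  ne : ∀ r ∉ J, ∃ E, w E ∧ At s (P E) r
  one : ∀ r ∉ J, ∀ E, w E → At s (P E) r →
    mu s (P E) r = 1 ∧ (∀ j, (P E).ord (y j) = 0) ∧ cz s y (P E) = 0

namespace G68

theorem gt' {Λ κ : Type} [AddCommGroup Λ] [Fintype κ] (A : Λ →+ κ → ℤ) (φ : Λ →+ ℤ)
    (h : ∀ l, (∀ j, 0 ≤ A l j) → 0 ≤ φ l) : ∃ (ζ : κ → ℝ) (l₀ : Λ), (∀ j, 0 ≤ ζ j) ∧
      (∀ l, ∑ j, ζ j * A l j = φ l) ∧ ∀ j, 0 ≤ A l₀ j ∧ (ζ j = 0 ↔ 0 < A l₀ j) := by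
  have k : A.rangeRestrict.ker ≤ φ.ker := fun l hl => by
    have e : A l = 0 := congrArg Subtype.val hl
    have a := h l fun j => by simp [e]
    have b := h (-l) fun j => by simp [e]
    rw [map_neg] at b
    exact le_antisymm (neg_nonneg.1 b) a
  let ψ := A.rangeRestrict.liftOfSurjective A.rangeRestrict_surjective ⟨φ, k⟩
  have e : ∀ l, ψ (A.rangeRestrict l) = φ l := fun l =>
    AddMonoidHom.liftOfRightInverse_comp_apply _ _ _ _ l
  obtain ⟨D, v, u, D0, h1, ⟨l₀, h2⟩, h3⟩ := gt A.range ψ fun u hu => by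
    obtain ⟨l, rfl⟩ := A.rangeRestrict_surjective u
    rw [e]
    exact h l hu
  have D1 : (0 : ℝ) < D := Nat.cast_pos.2 D0
  refine ⟨fun j => v j / D, l₀, fun j => by positivity, fun l => ?_, fun j => ?_⟩
  · have := congrArg (Int.cast (R := ℝ)) (h1 (A.rangeRestrict l))
    rw [e] at this
    push_cast at this
    rw [← mul_right_inj' D1.ne', ← this, Finset.mul_sum]
    refine Finset.sum_congr rfl fun j _ => ?_
    field_simp
    rfl
  · rw [h2]
    refine ⟨Int.natCast_nonneg _, ?_⟩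
    rw [div_eq_zero_iff, or_iff_left D1.ne', Nat.cast_eq_zero, ← h3]
    simp

theorem lam_hm (p : Pg c) : hm s y (Finsupp.single p 1) 0 = lam s p := by
  simp [hm, mon]

theorem y_hm (j : Fin ρ) : hm s y 0 (Pi.single j 1) = y j := by
  rw [hm, Finsupp.prod_zero_index, one_mul, mon, Finset.prod_eq_single j
    (fun i _ z => by rw [Pi.single_eq_of_ne z, zpow_zero])
    fun z => (z (Finset.mem_univ _)).elim, Pi.single_eq_same, zpow_one]

theorem am_nn (R : Pl K) (r : Option (Pg c)) : 0 ≤ am s R r := by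
  unfold am
  split_ifs with h
  exacts [h.1.le, le_rfl]

theorem am_at {R : Pl K} {r : Option (Pg c)} (h : At s R r) : am s R r = mu s R r := if_pos h

theorem am_not {R : Pl K} {r : Option (Pg c)} (h : ¬ At s R r) : am s R r = 0 := if_neg h

theorem am_fin (X : Fm s y w P) (r : Option (Pg c)) : {E | w E ∧ am s (P E) r ≠ 0}.Finite := by
  have k : ∀ E, am s (P E) r ≠ 0 → mu s (P E) r ≠ 0 := fun E h => by
    by_cases z : At s (P E) r
    · exact z.1.ne'
    · exact (h (am_not z)).elim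
  cases r with
  | none => exact (X.fin (1 + ∑ i, s i)).subset fun E h => ⟨h.1, neg_ne_zero.1 (k E h.2)⟩
  | some p => exact (X.fin (lam s p)).subset fun E h => ⟨h.1, k E h.2⟩

theorem ord_lam (h : D.Rat (fr s y)) {R : Pl K} (a : Hz s R ∨ ∃ r, At s R r) (p : Pg c) :
    R.ord (lam s p) = am s R (some p) - p.dg * am s R none := by
  obtain ⟨-, -, -, f4, f5, -⟩ := fac60 c ρ K s y h
  obtain a | ⟨_ | r, a⟩ := a
  · rw [a p, am_not fun z => (f5 _ _ z).2 a, am_not fun z => (f5 _ _ z).2 a]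
    simp
  · rw [a.2 p, F60.od_single, am_at a, am_not fun z => by cases f4 _ _ _ a z]
    ring
  · rw [am_not (r := none) fun z => by cases f4 _ _ _ a z]
    obtain rfl | e := eq_or_ne r p
    · rw [am_at a]
      simp [mu]
    · rw [a.2 p, am_not fun z => e (Option.some.inj (f4 _ _ _ a z))]
      simp [od, Finsupp.single_eq_of_ne e]

end G68

open G68

/-- the weighted order of the equation of a page -/
theorem ps_lam (X : Fm s y w P) {ζ : ι → ℝ} (hζ : ∀ E, ζ E ≠ 0 → w E ∧ ¬ Tv s y (P E))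
    (p : Pg c) : ∑ᶠ E, ζ E * (P E).ord (lam s p) = ps s P ζ (some p) - p.dg * ps s P ζ none := by
  rw [ps, ps, ← fs_mul _ _ fun E => am s (P E) none, ← finsum_sub_distrib
    (fs_fin hζ (am_fin X _)) (fs_fin (fun E z => hζ E (right_ne_zero_of_mul z)) (am_fin X _))]
  refine finsum_congr fun E => ?_
  by_cases z : ζ E = 0
  · simp [z]
  · rw [ord_lam X.rat (X.pg E (hζ E z).1)]
    push_cast
    ring

/-- the special pages -/
theorem spc (X : Fm s y w P) (J₀ : Finset (Option (Pg c))) : ∃ J, J₀ ⊆ J ∧ Spc s y w P J := by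
  classical
  obtain ⟨-, -, -, f4, -, -, -, -, -, f10, -⟩ := fac60 c ρ K s y X.rat
  have c1 := (czr80 pol60 fac60 c ρ K s y X.rat).1
  choose b n b0 n0 n1 n2 n3 using fun i => f10 (MvPolynomial.X i) (MvPolynomial.X_ne_zero i)
  let pt : ι → Option (Pg c) := fun E => if h : ∃ r, At s (P E) r then h.choose else none
  have p0 : ∀ E r, At s (P E) r → pt E = r := fun E r h => by
    have h' : ∃ r, At s (P E) r := ⟨r, h⟩
    simp only [pt, dif_pos h']
    exact f4 _ _ _ h'.choose_spec h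
  have fb : {E | w E ∧ ((∃ j, (P E).ord (y j) ≠ 0) ∨ cz s y (P E) ≠ 0)}.Finite :=
    ((Set.finite_iUnion fun j => X.fin (y j)).union X.finc).subset fun E hE => by
      obtain ⟨h0, ⟨j, h⟩ | h⟩ := hE
      · exact .inl (mem_iUnion.2 ⟨j, h0, h⟩)
      · exact .inr ⟨h0, h⟩
  refine ⟨J₀ ∪ (insert none (fb.toFinset.image pt) ∪ (X.mis.toFinset ∪
    Finset.univ.biUnion fun i => (n i).support).image some), Finset.subset_union_left, by simp,
    fun i p h => ?_, fun r hr => ?_, fun r hr E hE hA => ?_⟩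
  · refine Finset.mem_union_right _ (Finset.mem_union_right _ (Finset.mem_image_of_mem _
      (Finset.mem_union_right _ (Finset.mem_biUnion.2 ⟨i, Finset.mem_univ _, ?_⟩))))
    exact Finsupp.mem_support_iff.2 fun z => (n2 i p).1 z h
  · cases r with
    | none => exact (hr (by simp)).elim
    | some p =>
      exact by_contra fun z => hr (Finset.mem_union_right _ (Finset.mem_union_right _
        (Finset.mem_image_of_mem _ (Finset.mem_union_left _ (X.mis.mem_toFinset.2 z)))))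
  · have : ¬ ((∃ j, (P E).ord (y j) ≠ 0) ∨ cz s y (P E) ≠ 0) := fun h =>
      hr (Finset.mem_union_right _ (Finset.mem_union_left _ (Finset.mem_insert_of_mem
        (Finset.mem_image.2 ⟨E, fb.mem_toFinset.2 ⟨hE, h⟩, p0 E r hA⟩))))
    simp only [not_or, not_exists, not_not] at this
    refine ⟨?_, this⟩
    cases r with
    | none => exact (hr (by simp)).elim
    | some p =>
      have h1 := c1 (P E) p hA
      have h2 := hA.1
      rw [this.2] at h1
      omega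

/-- the primes which are horizontal or lie over `J` -/
theorem fin_kept (X : Fm s y w P) (J : Finset (Option (Pg c))) :
    {E | w E ∧ ¬ Tv s y (P E) ∧ ∀ r, At s (P E) r → r ∈ J}.Finite :=
  ((J.finite_toSet.biUnion fun r _ => am_fin X r).union
    (Set.finite_iUnion fun j => X.fin (y j))).subset fun E ⟨h0, h1, h2⟩ => by
      obtain h | ⟨r, h⟩ := X.pg E h0
      · refine .inr (by_contra fun z => h1 (((fac60 c ρ K s y X.rat).2.2.2.2.2.2.2.2.1 _).2
          ⟨h, fun j => by_contra fun e => z (mem_iUnion.2 ⟨j, h0, e⟩)⟩))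
      · exact .inl (mem_biUnion (h2 r h) ⟨h0, (am_at h).trans_ne h.1.ne'⟩)

/-- the forms of the pages are regular at the lift -/
theorem hv_nn (h : D.Rat (fr s y)) {Q : Pl K} {x : ℝ} (x0 : 0 ≤ x) (hs : ∀ i, 0 ≤ Q.ord (s i) + x)
    (r : Option (Pg c)) : 0 ≤ hv s Q x r := by
  obtain _ | p := r
  · exact x0
  have s0 : ∀ j, s j ≠ 0 := (F60.ind_s h.ind).ne_zero
  have := (fac60 c ρ K s y h).2.2.2.2.2.2.2.2.2.2 (Finsupp.single p 1) p.dg
    (Finsupp.single_nonneg.2 zero_le_one) (by rw [F60.od_single, neg_neg])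
  rw [lam_hm] at this
  refine ((Q.mem_sub (r := x * p.dg)).1 (Submodule.span_le.2 ?_ this)).resolve_left
    (F60.lam_ne (F60.ind_s h.ind) p)
  rintro _ ⟨m, hm, rfl⟩
  refine Or.inr ?_
  rw [Q.ord_prod _ fun j _ => pow_ne_zero _ (s0 j)]
  simp only [Pl.ord_pow]
  push_cast
  have a : ((∑ i, m i : ℕ) : ℝ) ≤ p.dg := Nat.cast_le.2 hm
  have b := Finset.sum_nonneg (s := Finset.univ) fun i _ =>
    mul_nonneg (Nat.cast_nonneg (α := ℝ) (m i)) (hs i)
  simp only [mul_add, Finset.sum_add_distrib, ← Finset.sum_mul] at b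
  push_cast at a
  nlinarith

/-- **the weights of Goldman and Tucker** -/
theorem gtp (X : Fm s y w P) {J : Finset (Option (Pg c))} (S : Spc s y w P J) (Q : Pl K)
    (ov : ∀ u, ∀ a ∈ Hm s y u, a ≠ 0 → (∀ E, w E → 0 ≤ (P E).ord a) → 0 ≤ Q.ord a) :
    ∃ (ζ : ι → ℝ) (n₀ : Pg c →₀ ℤ) (u₀ : Fin ρ → ℤ), 0 ≤ ζ ∧
      (∀ E, ζ E ≠ 0 → w E ∧ ¬ Tv s y (P E)) ∧
      (∀ u, ∀ a ∈ Hm s y u, a ≠ 0 → ∑ᶠ E, ζ E * (P E).ord a = Q.ord a) ∧
      (∀ p, some p ∉ J → n₀ p = 0) ∧ Q.ord (hm s y n₀ u₀) = 0 ∧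
      (∀ E, w E → 0 ≤ (P E).ord (hm s y n₀ u₀)) ∧
      (∀ E, w E → ¬ Tv s y (P E) → (∀ r, At s (P E) r → r ∈ J) →
        (ζ E = 0 ↔ 0 < (P E).ord (hm s y n₀ u₀))) ∧
      (∀ E r, w E → r ∉ J → At s (P E) r → (P E).ord (hm s y n₀ u₀) = 0) ∧
      (∀ i, 0 ≤ Q.ord (s i) + ps s P ζ none) ∧ ∀ r, ps s P ζ r = hv s Q (ps s P ζ none) r := by
  classical
  obtain ⟨-, f2, f3, f4, f5, f6, -, -, -, f10, -⟩ := fac60 c ρ K s y X.rat
  obtain ⟨-, -, -, c4, c5, -⟩ := czr80 pol60 fac60 c ρ K s y X.rat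
  obtain ⟨I, hI⟩ : ∃ I : Finset ι, ∀ E, E ∈ I ↔
      w E ∧ ¬ Tv s y (P E) ∧ ∀ r, At s (P E) r → r ∈ J :=
    ⟨(fin_kept X J).toFinset, fun E => (fin_kept X J).mem_toFinset⟩
  let Λ : AddSubgroup ((Pg c →₀ ℤ) × (Fin ρ → ℤ)) :=
    { carrier := {l | ∀ p, some p ∉ J → l.1 p = 0}
      zero_mem' := fun _ _ => rfl
      add_mem' := fun a b p z => by simp [a p z, b p z]
      neg_mem' := fun a p z => by simp [a p z] }
  let O : Pl K → Λ →+ ℤ := fun R => AddMonoidHom.mk' (fun l => R.ord (hm s y l.1.1 l.1.2))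
    fun a b => by
      simp only [AddSubgroup.coe_add, Prod.fst_add, Prod.snd_add]
      rw [f3, Pl.ord_mul _ (f2 _ _).1 (f2 _ _).1]
  have out : ∀ (l : Λ) E r, w E → r ∉ J → At s (P E) r → (P E).ord (hm s y l.1.1 l.1.2) = 0 :=
    fun l E r a z e => by
      obtain _ | p := r
      · exact (z S.inf).elim
      · rw [f6 _ _ _ _ e]
        simp [(S.one _ z E a e).2.1, od, l.2 p z]
  have reg : ∀ l : Λ, (∀ E : I, 0 ≤ O (P E) l) → ∀ E, w E → 0 ≤ (P E).ord (hm s y l.1.1 l.1.2) :=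
    fun l hl E a => by
      by_cases z : E ∈ I
      · exact hl ⟨E, z⟩
      by_cases t : Tv s y (P E)
      · exact (t _ _ (f2 _ _).2 (f2 _ _).1).ge
      obtain ⟨r, e, hr⟩ : ∃ r, At s (P E) r ∧ r ∉ J := by
        by_contra h
        exact z ((hI E).2 ⟨a, t, fun r c => by_contra fun e => h ⟨r, c, e⟩⟩)
      exact (out l E r a hr e).ge
  obtain ⟨ξ, l₀, ξ0, h1, h2⟩ := gt' (AddMonoidHom.pi fun E : I => O (P E)) (O Q) fun l hl =>
    ov _ _ (f2 _ _).2 (f2 _ _).1 (reg l hl)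
  replace h1 : ∀ l : Λ, ∑ E : I, ξ E * (P E).ord (hm s y l.1.1 l.1.2) =
      Q.ord (hm s y l.1.1 l.1.2) := h1
  choose b bw bA using fun r : {r // r ∉ J} => S.ne r r.2
  have bi : Function.Injective b := fun r r' e => Subtype.ext (f4 _ _ _ (bA r) (e ▸ bA r'))
  let x : ℝ := ∑ E : I, ξ E * am s (P E) none
  have x0 : 0 ≤ x := Finset.sum_nonneg fun E _ => mul_nonneg (ξ0 E) (Int.cast_nonneg (am_nn _ _))
  have hs : ∀ i, 0 ≤ Q.ord (s i) + x := fun i => by
    obtain ⟨β, n, β0, -, -, n2, n3⟩ := f10 (MvPolynomial.X i) (MvPolynomial.X_ne_zero i)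
    rw [MvPolynomial.aeval_X] at n3
    have e : ∀ R : Pl K, R.ord (hm s y n 0) = R.ord (s i) := fun R => by rw [n3, Pl.ord_smul _ β0]
    have := h1 ⟨(n, 0), fun p z => (n2 p).2 fun d => z (S.crd i p d)⟩
    simp only [e] at this
    rw [← this, ← Finset.sum_add_distrib]
    refine Finset.sum_nonneg fun E _ => ?_
    rw [← mul_add]
    refine mul_nonneg (ξ0 E) ?_
    rw [← Int.cast_add, Int.cast_nonneg_iff]
    obtain a | ⟨_ | p, a⟩ := X.pg E ((hI E).1 E.2).1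
    · exact add_nonneg (c5 _ (.inl a) i) (am_nn _ _)
    · rw [c4 _ a, am_at a, neg_add_cancel]
    · exact add_nonneg (c5 _ (.inr ⟨p, a⟩) i) (am_nn _ _)
  let ζ₁ : ι → ℝ := Function.extend Subtype.val ξ 0
  let ζ₂ : ι → ℝ := Function.extend b (fun r => hv s Q x r) 0
  have z1 : ∀ E, ζ₁ E ≠ 0 → E ∈ I := fun E z => by_contra fun e =>
    z (Function.extend_apply' _ _ _ fun ⟨E', e'⟩ => e (e' ▸ E'.2))
  have z2 : ∀ E, ζ₂ E ≠ 0 → ∃ r, b r = E := fun E z => by_contra fun e =>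
    z (Function.extend_apply' _ _ _ e)
  have w1 : ∀ E, ζ₁ E ≠ 0 → w E ∧ ¬ Tv s y (P E) := fun E z =>
    ⟨((hI E).1 (z1 E z)).1, ((hI E).1 (z1 E z)).2.1⟩
  have w2 : ∀ E, ζ₂ E ≠ 0 → w E ∧ ¬ Tv s y (P E) := fun E z => by
    obtain ⟨r, rfl⟩ := z2 E z
    exact ⟨bw r, (f5 _ _ (bA r)).1⟩
  have hζ : ∀ E, ζ₁ E + ζ₂ E ≠ 0 → w E ∧ ¬ Tv s y (P E) := fun E z => by
    by_cases e : ζ₁ E = 0
    · exact w2 E fun e' => z (by rw [e, e', add_zero])
    · exact w1 E e
  have sm : ∀ F : ι → ℤ, {E | w E ∧ F E ≠ 0}.Finite → ∑ᶠ E, (ζ₁ E + ζ₂ E) * F E =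
      ∑ E : I, ξ E * F E + ∑ᶠ r, hv s Q x r.1 * F (b r) := fun F hF => by
    simp only [add_mul]
    rw [finsum_add_distrib (fs_fin w1 hF) (fs_fin w2 hF), H45.fs_ext Subtype.val_injective,
      H45.fs_ext bi, finsum_eq_sum_of_fintype]
  have px : ps s P (fun E => ζ₁ E + ζ₂ E) none = x := by
    rw [ps, sm _ (am_fin X _), finsum_eq_zero_of_forall_eq_zero fun r => by
      rw [am_not fun z => r.2 (f4 _ _ _ z (bA r) ▸ S.inf), Int.cast_zero, mul_zero], add_zero]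
  have hl : ∀ p, ∑ᶠ E, (ζ₁ E + ζ₂ E) * (P E).ord (lam s p) = Q.ord (lam s p) := fun p => by
    rw [sm _ (X.fin _)]
    by_cases z : some p ∈ J
    · let l : Λ := ⟨(Finsupp.single p 1, 0), fun p' e =>
        Finsupp.single_eq_of_ne fun d => e (d ▸ z)⟩
      have a := h1 l
      have d := fun r => out l _ _ (bw r) r.2 (bA r)
      simp only [l, lam_hm] at a d
      simp only [a, d, Int.cast_zero, mul_zero, finsum_zero, add_zero]
    · rw [finsum_eq_single _ ⟨some p, z⟩ fun r e => by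
        rw [ord_lam X.rat (.inr ⟨_, bA r⟩), am_not fun d => e (Subtype.ext (f4 _ _ _ (bA r) d)),
          am_not fun d => r.2 (f4 _ _ _ d (bA r) ▸ S.inf)]
        simp, Finset.sum_congr rfl (g := fun E : I => -(p.dg : ℝ) * (ξ E * am s (P E) none))
        fun E _ => by
          rw [ord_lam X.rat (X.pg E ((hI E).1 E.2).1), am_not fun d => z (((hI E).1 E.2).2.2 _ d)]
          push_cast
          ring, ← Finset.mul_sum]
      have : (P (b ⟨some p, z⟩)).ord (lam s p) = 1 := (S.one _ z _ (bw ⟨_, z⟩) (bA ⟨_, z⟩)).1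
      rw [this]
      simp only [hv, x]
      push_cast
      ring
  refine ⟨fun E => ζ₁ E + ζ₂ E, l₀.1.1, l₀.1.2, fun E => add_nonneg ?_ ?_, hζ,
    fun u a ha a0 => ?_, l₀.2, ?_, reg l₀ fun E => (h2 E).1, fun E a t e => ?_, out l₀,
    px ▸ hs, fun r => ?_⟩
  · by_cases e : ζ₁ E = 0
    · exact e.ge
    · exact (ξ0 ⟨E, z1 E e⟩).trans_eq (Subtype.val_injective.extend_apply ξ 0 ⟨E, z1 E e⟩).symm
  · by_cases e : ζ₂ E = 0
    · exact e.ge
    · obtain ⟨r, rfl⟩ := z2 E e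
      exact (hv_nn X.rat x0 hs r).trans_eq (bi.extend_apply (fun r => hv s Q x r) 0 r).symm
  · rw [oa_of fac60 X hζ Q 1 (fun j => ?_) (fun p => by rw [hl, one_mul]) u a ha a0, one_mul]
    have a := h1 ⟨(0, Pi.single j 1), fun _ _ => rfl⟩
    simp only [y_hm] at a
    rw [sm _ (X.fin _), a, finsum_eq_zero_of_forall_eq_zero fun r => by
      rw [(S.one _ r.2 _ (bw r) (bA r)).2.1, Int.cast_zero, mul_zero], add_zero, one_mul]
  · rw [← Int.cast_inj (α := ℝ), ← h1 l₀, Int.cast_zero]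
    refine Finset.sum_eq_zero fun E _ => ?_
    obtain d | d := (h2 E).1.eq_or_lt
    · exact mul_eq_zero_of_right _ (Int.cast_eq_zero.2 d.symm)
    · exact mul_eq_zero_of_left ((h2 E).2.2 d) _
  · have m := (hI E).2 ⟨a, t, e⟩
    have d : ζ₂ E = 0 := by_contra fun d => by
      obtain ⟨r, rfl⟩ := z2 E d
      exact r.2 (e _ (bA r))
    have d' : ζ₁ E = ξ ⟨E, m⟩ := Subtype.val_injective.extend_apply ξ 0 ⟨E, m⟩
    simp only [d, d', add_zero]
    exact (h2 ⟨E, m⟩).2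
  · obtain _ | p := r
    · rfl
    · have := ps_lam X hζ p
      rw [hl] at this
      simp only [hv]
      linarith

end Vale.Agent.P283R.Pq
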