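import Vale.Agent.P283R.Pq.St

/-!
# P283R, block PQ: sums of homogeneous functions
-/

open Set

noncomputable section

namespace Vale.Agent.P283R.Pq

variable {n ρ : ℕ}

open Vale.Agent.P287D Vale.Agent.P283R.To

namespace Sm85

variable {K : Type} [Field K] [Algebra ℂ K] {d : ℕ}

omit [Algebra ℂ K] in
/-- the Laurent monomials are linearly independent -/
theorem li_mon {L : Type} [Field L] [Algebra L K] {y : Fin d → K} (hy : AlgebraicIndependent L y) :
    LinearIndependent L (mon y) := by
  classical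
  have y0 : ∀ j, y j ≠ 0 := fun j => hy.ne_zero j
  refine linearIndependent_iff'.2 fun t c h u hu => ?_
  obtain ⟨T, hT⟩ : ∃ T : ℕ, ∀ m ∈ t, ∀ j, 0 ≤ m j + T := by
    refine ⟨∑ m ∈ t, ∑ j, (m j).natAbs, fun m hm j => ?_⟩
    have := (Finset.single_le_sum (f := fun j => (m j).natAbs) (fun _ _ => Nat.zero_le _)
      (Finset.mem_univ j)).trans (Finset.single_le_sum (f := fun m : Fin d → ℤ =>
        ∑ j, (m j).natAbs) (fun _ _ => Nat.zero_le _) hm)
    omega
  let e : (Fin d → ℤ) → Fin d →₀ ℕ := fun m =>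
    Finsupp.equivFunOnFinite.symm fun j => (m j + T).toNat
  have ee : ∀ m ∈ t, ∀ j, (e m j : ℤ) = m j + T := fun m hm j => Int.toNat_of_nonneg (hT m hm j)
  have z : ∑ m ∈ t, MvPolynomial.monomial (e m) (c m) = 0 := hy.eq_zero_of_aeval_eq_zero _ (by
    rw [map_sum, ← mul_zero (mon y fun _ => T), ← h, Finset.mul_sum]
    refine Finset.sum_congr rfl fun m hm => ?_
    rw [MvPolynomial.aeval_monomial, Finsupp.prod_fintype _ _ fun _ => pow_zero _, mul_smul_comm,
      ← mon_add y0, Algebra.smul_def]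
    refine congrArg _ (Finset.prod_congr rfl fun j _ => ?_)
    rw [← zpow_natCast, ee m hm, Pi.add_apply, add_comm])
  have := congrArg (MvPolynomial.coeff (e u)) z
  rwa [MvPolynomial.coeff_sum, Finset.sum_eq_single u (fun m hm ne => by
    rw [MvPolynomial.coeff_monomial, if_neg fun q => ne (funext fun j => by
      have a := ee m hm j
      rw [q, ee u hu j] at a
      omega)]) fun k => (k hu).elim, MvPolynomial.coeff_monomial, if_pos rfl] at this

omit [Algebra ℂ K] in
theorem zero_of {L : Type} [Field L] [Algebra L K] {y : Fin d → K} (hy : AlgebraicIndependent L y)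
    (t : Finset (Fin d → ℤ)) (c : (Fin d → ℤ) → L)
    (h : ∑ v ∈ t, algebraMap L K (c v) * mon y v = 0) : ∀ u ∈ t, c u = 0 :=
  (linearIndependent_iff' (R := L) (v := mon y)).1 (li_mon hy) t c
    (h ▸ Finset.sum_congr rfl fun _ _ => Algebra.smul_def _ _)

theorem ind_of {s : Fin n → K} {y : Fin d → K}
    (h : AlgebraicIndependent ℂ (Fin.append s y : Fin (n + d) → K)) :
    AlgebraicIndependent (IntermediateField.adjoin ℂ (range s)) y := by
  have a := (h.adjoin_of_disjoint (s := range (Fin.castAdd d)) (t := (range (Fin.castAdd d))ᶜ)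
    disjoint_compl_right).comp (fun j : Fin d => ⟨Fin.natAdd n j, fun ⟨i, e⟩ => by
      have := congrArg Fin.val e
      have := i.2
      simp only [Fin.val_castAdd, Fin.val_natAdd] at *
      omega⟩) fun _ _ e => Fin.natAdd_injective _ _ (congrArg (·.1) e)
  rw [← range_comp, show Fin.append s y ∘ Fin.castAdd d = s from funext (Fin.append_left s y)] at a
  refine IntermediateField.algebraicIndependent_adjoin_iff.2 ?_
  convert a using 1
  exact funext fun j => (Fin.append_right s y j).symm

variable {s : Fin n → K} {y : Fin ρ → K} {u : Fin ρ → ℤ}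

theorem hm_zero : (0 : K) ∈ Hm s y u := ⟨0, zero_mem _, (zero_mul _).symm⟩

theorem hm_add {a b : K} (h : a ∈ Hm s y u) (h' : b ∈ Hm s y u) : a + b ∈ Hm s y u :=
  let ⟨φ, p, e⟩ := h
  let ⟨ψ, q, e'⟩ := h'
  ⟨φ + ψ, add_mem p q, by rw [e, e', add_mul]⟩

theorem hm_smul (c : ℂ) {a : K} (h : a ∈ Hm s y u) : c • a ∈ Hm s y u :=
  let ⟨φ, p, e⟩ := h
  ⟨c • φ, IntermediateField.smul_mem _ p, by rw [e, smul_mul_assoc]⟩

omit [Algebra ℂ K] in
theorem tot_add (G G' : (Fin ρ → ℤ) →₀ K) : tot (G + G') = tot G + tot G' :=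
  Finsupp.sum_add_index' (fun _ => rfl) fun _ _ _ => rfl

theorem tot_smul (c : ℂ) (G : (Fin ρ → ℤ) →₀ K) : tot (c • G) = c • tot G := by
  rw [tot, Finsupp.sum_smul_index' fun _ => rfl, tot, Finsupp.smul_sum]

omit [Algebra ℂ K] in
theorem tot_single (u : Fin ρ → ℤ) (a : K) : tot (Finsupp.single u a) = a :=
  Finsupp.sum_single_index rfl

end Sm85

open Sm85

/-- **SUMS** -/
theorem sums85 : SUMS := by
  classical
  intro n ρ K _ _ s y h
  refine ⟨fun G g G0 e => G0 (Finsupp.ext fun u => ?_), fun G P e => ?_, fun A a ha => ?_⟩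
  · choose φ p q using g
    by_contra k
    have i : AlgebraicIndependent (IntermediateField.adjoin ℂ (range s)) y := ind_of h.ind
    have w := zero_of i G.support (fun v => ⟨φ v, p v⟩) (by
      rw [← e]
      exact Finset.sum_congr rfl fun v _ => (q v).symm) u (Finsupp.mem_support_iff.2 k)
    have w' : φ u = 0 := congrArg Subtype.val w
    exact k (by rw [q u, w', zero_mul]; rfl)
  · by_contra k
    push Not at k
    have : tot G ∈ P.sub (-(P.ord (tot G) : ℝ) - 1) := sum_mem fun u hu => .inr (by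
      have : ((P.ord (tot G) + 1 : ℤ) : ℝ) ≤ P.ord (G u) :=
        Int.cast_le.2 (k u (Finsupp.mem_support_iff.1 hu))
      push_cast at this
      linarith)
    linarith [this.resolve_left e]
  · induction ha using Submodule.span_induction with
    | mem b hb =>
      obtain ⟨b1, v, b2⟩ := hb
      refine ⟨Finsupp.single v b, fun u => ?_, (tot_single v b).symm, fun u => ?_⟩ <;>
        rcases eq_or_ne u v with rfl | k
      · rwa [Finsupp.single_eq_same]
      · rw [Finsupp.single_eq_of_ne k]; exact hm_zero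
      · rw [Finsupp.single_eq_same]; exact Submodule.subset_span ⟨b1, b2⟩
      · rw [Finsupp.single_eq_of_ne k]; exact zero_mem _
    | zero => exact ⟨0, fun _ => hm_zero, rfl, fun _ => zero_mem _⟩
    | add a b _ _ p q =>
      obtain ⟨G, g1, rfl, g2⟩ := p
      obtain ⟨G', g3, rfl, g4⟩ := q
      exact ⟨G + G', fun u => hm_add (g1 u) (g3 u), (tot_add _ _).symm,
        fun u => add_mem (g2 u) (g4 u)⟩
    | smul c a _ p =>
      obtain ⟨G, g1, rfl, g2⟩ := p
      exact ⟨c • G, fun u => hm_smul c (g1 u), (tot_smul _ _).symm,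
        fun u => Submodule.smul_mem _ c (g2 u)⟩

end Vale.Agent.P283R.Pq
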