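import Vale.Agent.P283R.Pq.St
import Vale.Agent.P283R.Wd.Spl25

/-!
# P283R, block PQ: the families do not depend on the basis of the lattice, the tower
-/

open Set Matrix
open Vale.Agent.P287D Vale.Agent.P283R.To Vale.Agent.P283R.Cx

noncomputable section

namespace Vale.Agent.P283R.Pq.B25

variable {K : Type} [Field K] [Algebra ℂ K] {c r : ℕ} {s : Fin c → K} {y : Fin r → K}
  {A B : Matrix (Fin r) (Fin r) ℤ} {ι : Type}

theorem y_ne (h : D.Rat (fr s y)) (j : Fin r) : y j ≠ 0 := by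
  have := h.ind.ne_zero (Fin.natAdd c j)
  rwa [fr, Fin.append_right] at this

/-- **change of the basis of the lattice** -/
theorem bas (h : D.Rat (fr s y)) (hB : B * A = 1) : D.Rat (fr s fun i => mon y (A i)) ∧
    (∀ m, mon (fun i => mon y (A i)) (m ᵥ* B) = mon y m) ∧
    (∀ m, Hm s (fun i => mon y (A i)) (m ᵥ* B) = Hm s y m) ∧
    (∀ P, kap (fr s fun i => mon y (A i)) P - ∑ i, (P.ord (mon y (A i)) : ℝ) =
      kap (fr s y) P - ∑ j, (P.ord (y j) : ℝ)) ∧
    ∀ P, cz s (fun i => mon y (A i)) P = cz s y P := by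
  have y0 := y_ne h
  let bl : Matrix (Fin r) (Fin r) ℤ → Matrix (Fin (c + r)) (Fin (c + r)) ℤ := fun A =>
    (Matrix.fromBlocks (1 : Matrix (Fin c) (Fin c) ℤ) 0 0 A).submatrix
      finSumFinEquiv.symm finSumFinEquiv.symm
  have hB' : bl B * bl A = 1 := by
    simp only [bl]
    rw [Matrix.submatrix_mul_equiv, Matrix.fromBlocks_multiply]
    simp [hB]
  have e : (fr s fun i => mon y (A i)) = fun i => mon (fr s y) (bl A i) := funext fun i => by
    rw [mon, Fin.prod_univ_add]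
    refine Fin.addCases (fun i => ?_) (fun i => ?_) i
    · rw [Finset.prod_eq_single i (fun j _ h => by simp [bl, Matrix.one_apply_ne' h]) (by simp)]
      simp [bl, fr]
    · simp [bl, fr, mon]
  have m1 : ∀ m, mon (fun i => mon y (A i)) (m ᵥ* B) = mon y m := fun m => by
    rw [mon_vec y0, Matrix.vecMul_vecMul, hB, Matrix.vecMul_one]
  have k1 : ∀ P, kap (fr s fun i => mon y (A i)) P - ∑ i, (P.ord (mon y (A i)) : ℝ) =
      kap (fr s y) P - ∑ j, (P.ord (y j) : ℝ) := fun P => by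
    have := la_mon h.ff h.ind (det_ne hB') P
    rw [← e, la, la, Fin.sum_univ_add, Fin.sum_univ_add] at this
    simp only [fr, Fin.append_left, Fin.append_right] at this
    simp only [fr]
    linarith
  refine ⟨e ▸ rat_bas h hB', m1, fun m => by rw [Hm, m1, Hm], k1, fun P => ?_⟩
  have := k1 P
  obtain ⟨a, ha⟩ := Cb.kap_int (fr s fun i => mon y (A i)) P
  obtain ⟨b, hb⟩ := Cb.kap_int (fr s y) P
  rw [cz, cz, ha, hb, Int.floor_intCast, Int.floor_intCast]
  rw [ha, hb] at this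
  exact_mod_cast this

/-- the change of the degrees -/
def ev (hB : B * A = 1) : (Fin r → ℤ) ≃ (Fin r → ℤ) where
  toFun m := m ᵥ* B
  invFun m := m ᵥ* A
  left_inv m := by simp only [Matrix.vecMul_vecMul, hB, Matrix.vecMul_one]
  right_inv m := by simp only [Matrix.vecMul_vecMul, mul_eq_one_comm.1 hB, Matrix.vecMul_one]

theorem hm_ev (h : D.Rat (fr s y)) (hB : B * A = 1) (m : Fin r → ℤ) :
    Hm s (fun i => mon y (A i)) (ev hB m) = Hm s y m := (bas h hB).2.2.1 m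

theorem hm_ev' (h : D.Rat (fr s y)) (hB : B * A = 1) (m : Fin r → ℤ) :
    Hm s (fun i => mon y (A i)) m = Hm s y (m ᵥ* A) := by
  rw [← hm_ev h hB]
  exact congrArg _ ((ev hB).apply_symm_apply m).symm

theorem all_hm (h : D.Rat (fr s y)) (hB : B * A = 1) {p : K → Prop} :
    (∀ u, ∀ a ∈ Hm s (fun i => mon y (A i)) u, p a) ↔ ∀ u, ∀ a ∈ Hm s y u, p a :=
  ⟨fun k u a ha => k _ a (hm_ev h hB u ▸ ha), fun k u a ha => k _ a (hm_ev' h hB u ▸ ha)⟩

theorem ex_hm (h : D.Rat (fr s y)) (hB : B * A = 1) {a : K} :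
    (∃ u, a ∈ Hm s (fun i => mon y (A i)) u) ↔ ∃ u, a ∈ Hm s y u :=
  ⟨fun ⟨u, ha⟩ => ⟨_, hm_ev' h hB u ▸ ha⟩, fun ⟨u, ha⟩ => ⟨_, hm_ev h hB u ▸ ha⟩⟩

theorem tv_iff (h : D.Rat (fr s y)) (hB : B * A = 1) (P : Pl K) :
    Tv s (fun i => mon y (A i)) P ↔ Tv s y P := all_hm h hB

omit [Algebra ℂ K] in
theorem tot_ev (e : (Fin r → ℤ) ≃ (Fin r → ℤ)) (G : (Fin r → ℤ) →₀ K) :
    tot (G.equivMapDomain e) = tot G := Finsupp.sum_equivMapDomain e G _

theorem hg_up (h : D.Rat (fr s y)) (hB : B * A = 1) {G : (Fin r → ℤ) →₀ K} (hG : Hg s y G) :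
    Hg s (fun i => mon y (A i)) (G.equivMapDomain (ev hB)) := fun u => by
  rw [hm_ev' h hB]
  exact hG _

theorem hg_dn (h : D.Rat (fr s y)) (hB : B * A = 1) {G : (Fin r → ℤ) →₀ K}
    (hG : Hg s (fun i => mon y (A i)) G) : Hg s y (G.equivMapDomain (ev hB).symm) := fun u => by
  rw [← hm_ev h hB]
  exact hG _

/-- **families** -/
theorem fm_bas {w : ι → Prop} {P : ι → Pl K} (h : Fm s y w P) (hB : B * A = 1) :
    Fm s (fun i => mon y (A i)) w P := by
  obtain ⟨a1, -, -, -, a6⟩ := bas h.rat hB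
  have tv := tv_iff h.rat hB
  refine ⟨a1, h.fin, by simpa only [a6] using h.finc, fun E hE n G hG u h0 => ?_, fun φ φ0 k => ?_,
    by simpa only [tv] using h.eqn, by simpa only [tv, a6] using h.kt, h.mis, h.pg⟩
  · have := h.inv E hE (mt (tv _).2 n) _ (hg_dn h.rat hB hG) ((ev hB).symm u) (by simpa using h0)
    simpa [tot_ev] using this
  · obtain ⟨G, hG, e⟩ := h.lau φ φ0 fun E hE t => k E hE ((tv _).2 t)
    exact ⟨_, hg_up h.rat hB hG, by rw [tot_ev, e]⟩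

/-- **the inequality** -/
theorem hw_bas (h : D.Rat (fr s y)) (hB : B * A = 1) {ε : ℝ} {q : ℕ} {w : ι → Prop}
    {P : ι → Pl K} {g : K} {κ : ι → ℤ} :
    Hw ε q s (fun i => mon y (A i)) w P g κ ↔ Hw ε q s y w P g κ := by
  simp only [Hw, tv_iff h hB, (bas h hB).2.2.2.2]
  refine forall₂_congr fun Q ξ => imp_congr_right fun _ => imp_congr_right fun _ =>
    imp_congr_left (all_hm h hB)

theorem ord_bas (h : D.Rat (fr s y)) (A : Matrix (Fin r) (Fin r) ℤ) (P : Pl K) (i : Fin r) :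
    P.ord (mon y (A i)) = A i ⬝ᵥ fun j => P.ord (y j) := by
  rw [ord_mon P (y_ne h), dotProduct]

omit [Field K] [Algebra ℂ K] in
theorem app_app {n ρ : ℕ} (s : Fin c → K) (y : Fin n → K) (u : Fin ρ → K) :
    Fin.append (fr s y) u =
      fun i => fr s (Fin.append y u) (Fin.cast (Nat.add_assoc c n ρ) i) := by
  rw [fr, Fin.append_assoc]
  rfl

/-- **the tower** `K = K₁(u)`, `K₁ = ℂ(s, y)` -/
theorem tower {n ρ : ℕ} {y : Fin n → K} {u : Fin ρ → K} (h : D.Rat (fr s (Fin.append y u))) :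
    D.Rat (Wd.sb (fr s y)) ∧ Ext (Wd.Sb (fr s y)) (c + n) u ∧
      ∀ P, lt (Wd.sb (fr s y)) u P =
        1 + kap (fr s (Fin.append y u)) P - ∑ i, (P.ord (u i) : ℝ) := by
  have a : D.Rat (Fin.append (fr s y) u) := by
    rw [app_app]
    refine ⟨h.ind.comp _ (Fin.cast_injective _), fun x => ?_⟩
    have : (range fun i => fr s (Fin.append y u) (Fin.cast (Nat.add_assoc c n ρ) i)) =
        range (fr s (Fin.append y u)) :=
      (finCongr (Nat.add_assoc c n ρ)).surjective.range_comp _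
    rw [this]
    exact h.gen x
  refine ⟨(Wd.tower a).1, (Wd.tower a).2, fun P => ?_⟩
  rw [lt, Wd.zt_sb, app_app, Wd.kap_cs]

/-- **a basis adapted to a saturated lattice**: the degrees of `L` are those without `u` -/
theorem adapt {w : ι → Prop} {P : ι → Pl K} (h : Fm s y w P) (L : Submodule ℤ (Fin r → ℤ))
    (sat : ∀ (n : ℤ) m, n ≠ 0 → n • m ∈ L → m ∈ L) :
    ∃ (n ρ : ℕ) (y₁ : Fin n → K) (u : Fin ρ → K), n + ρ = r ∧ Fm s (Fin.append y₁ u) w P ∧
      (∀ i, ∃ m ∈ L, y₁ i = mon y m) ∧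
      (∀ (a : Fin n → ℤ) (b : Fin ρ → ℤ), ∃ m, mon y m = mon y₁ a * mon u b ∧ (m ∈ L ↔ b = 0)) ∧
      (∀ Q, Tv s (Fin.append y₁ u) Q ↔ Tv s y Q) ∧ (∀ Q, cz s (Fin.append y₁ u) Q = cz s y Q) ∧
      (∀ a, (∃ m, a ∈ Hm s (Fin.append y₁ u) m) ↔ ∃ m, a ∈ Hm s y m) ∧
      ∀ ε q g κ, Hw ε q s (Fin.append y₁ u) w P g κ ↔ Hw ε q s y w P g κ := by
  obtain ⟨n, ρ, rfl, A, B, hA, hB, hL⟩ := Wd.lat L sat
  have e : Fin.append (fun i => mon y (A (Fin.castAdd ρ i))) (fun i => mon y (A (Fin.natAdd n i))) =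
      fun i => mon y (A i) := funext fun i => by
    refine Fin.addCases (fun i => ?_) (fun i => ?_) i <;> simp
  have k : ∀ m : Fin (n + ρ) → ℤ, m ᵥ* A ∈ L ↔ ∀ j, m (Fin.natAdd n j) = 0 := fun m => by
    rw [hL, Matrix.vecMul_vecMul, hA, Matrix.vecMul_one]
    rfl
  refine ⟨n, ρ, fun i => mon y (A (Fin.castAdd ρ i)), fun i => mon y (A (Fin.natAdd n i)), rfl,
    e ▸ fm_bas h hB, fun i => ⟨A (Fin.castAdd ρ i), ?_, rfl⟩, fun a b => ⟨Fin.append a b ᵥ* A, ?_, ?_⟩,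
    e ▸ tv_iff h.rat hB, e ▸ (bas h.rat hB).2.2.2.2, fun a => e ▸ ex_hm h.rat hB,
    fun ε q g κ => e ▸ hw_bas h.rat hB⟩
  · have := (k (Pi.single (Fin.castAdd ρ i) 1)).2 fun j => Pi.single_eq_of_ne (fun h => by
      have := congrArg Fin.val h
      rw [Fin.val_natAdd, Fin.val_castAdd] at this
      omega) _
    rwa [Matrix.single_one_vecMul] at this
  · rw [← mon_vec (y_ne h.rat), mon, Fin.prod_univ_add]
    simp only [Fin.append_left, Fin.append_right]
    rfl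
  · rw [k]
    simp only [Fin.append_right]
    exact ⟨fun h => funext h, fun h j => congrFun h j⟩

end Vale.Agent.P283R.Pq.B25
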