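import Vale.Agent.P283R.Pq.All

/-!
# P283R, block PQ: the count of the pages
-/

open Set

noncomputable section

namespace Vale.Agent.P283R.Pq

open Vale.Agent.P287D Vale.Agent.P283M Vale.Agent.P283R.To Vale.Agent.P297Z

variable {c ρ : ℕ} {K : Type} [Field K] [Algebra ℂ K] {ι : Type} {s : Fin c → K} {y : Fin ρ → K}
  {w : ι → Prop} {P : ι → Pl K} {ε : ℝ} {q : ℕ} {κ : ι → ℤ}

namespace C67

open Classical in
/-- the multiplicity of the place in the page -/
def mv (s : Fin c → K) (R : Pl K) (r : Option (Pg c)) : ℤ := if At s R r then mu s R r else 0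

theorem mv_pos {R : Pl K} {r : Option (Pg c)} (h : At s R r) : mv s R r = mu s R r := if_pos h

theorem mv_neg {R : Pl K} {r : Option (Pg c)} (h : ¬ At s R r) : mv s R r = 0 := if_neg h

theorem mv_nn (R : Pl K) (r : Option (Pg c)) : 0 ≤ mv s R r := by
  by_cases h : At s R r
  exacts [mv_pos h ▸ h.1.le, (mv_neg h).ge]

theorem mv_fin (X : Fm s y w P) (r : Option (Pg c)) : {E | w E ∧ mv s (P E) r ≠ 0}.Finite := by
  have k : ∀ E, mv s (P E) r ≠ 0 → mu s (P E) r ≠ 0 := fun E h =>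
    (show At s (P E) r from by_contra fun n => h (mv_neg n)).1.ne'
  cases r with
  | none => exact (X.fin _).subset fun E h => ⟨h.1, neg_ne_zero.1 (k E h.2)⟩
  | some p => exact (X.fin _).subset fun E h => ⟨h.1, k E h.2⟩

theorem ord_lam (X : Fm s y w P) {E : ι} (h : w E) (p : Pg c) :
    (P E).ord (lam s p) = mv s (P E) (some p) - mv s (P E) none * p.dg := by
  classical
  obtain ⟨-, -, -, f4, f5, -⟩ := fac c ρ K s y X.rat
  obtain a | ⟨r, a⟩ := X.pg E h
  · rw [a p, mv_neg fun n => (f5 _ _ n).2 a, mv_neg fun n => (f5 _ _ n).2 a]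
    simp
  rw [a.2 p]
  cases r with
  | none =>
    rw [mv_pos a, mv_neg (r := some p) fun n => by simpa using f4 _ _ _ a n, F60.od_single]
    ring
  | some p' =>
    rw [mv_neg (r := none) fun n => by simpa using f4 _ _ _ a n]
    obtain rfl | n := eq_or_ne p p'
    · simp [mv_pos a, od]
    · rw [mv_neg fun k => n (Option.some.inj (f4 _ _ _ k a))]
      simp [od, n.symm]

theorem fs_lam (X : Fm s y w P) {ξ : ι → ℝ} (hξ : ∀ E, ξ E ≠ 0 → w E ∧ ¬ Tv s y (P E))
    (p : Pg c) : ∑ᶠ E, ξ E * (P E).ord (lam s p) =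
      ∑ᶠ E, ξ E * mv s (P E) (some p) - p.dg * ∑ᶠ E, ξ E * mv s (P E) none := by
  rw [← fs_mul, ← finsum_sub_distrib (fs_fin hξ (mv_fin X _))
    (fs_fin (fun E hE => hξ E (right_ne_zero_of_mul hE)) (mv_fin X _))]
  refine finsum_congr fun E => ?_
  by_cases z : ξ E = 0
  · simp [z]
  · rw [ord_lam X (hξ E z).1]
    push_cast
    ring

variable {Q : Pl K} {ζ : ι → ℝ}

/-- the order of the form of a page at the lift -/
theorem hv_eq (X : Fm s y w P) (hζ : ∀ E, ζ E ≠ 0 → w E ∧ ¬ Tv s y (P E))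
    (oζ : ∀ u, ∀ x ∈ Hm s y u, x ≠ 0 → ∑ᶠ E, ζ E * (P E).ord x ≤ Q.ord x) (r : Option (Pg c)) :
    hv s Q (∑ᶠ E, ζ E * mv s (P E) none) r = ∑ᶠ E, ζ E * mv s (P E) r := by
  cases r with
  | none => rfl
  | some p =>
    have f := (fac c ρ K s y X.rat).2.1
    have a := oζ 0 _ (f (.single p 1) 0).2 (f _ 0).1
    have b := oζ 0 _ (f (.single p (-1)) 0).2 (f _ 0).1
    have e : ∀ k, hm s y (.single p k) 0 = lam s p ^ k := fun k => by
      simp [hm, mon, Finsupp.prod_single_index]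
    simp only [e, zpow_one, zpow_neg, Pl.ord_inv, Int.cast_neg, mul_neg, finsum_neg_distrib] at a b
    have := fs_lam X hζ p
    simp only [hv]
    linarith

theorem hs_of (X : Fm s y w P) (ζ0 : 0 ≤ ζ) (hζ : ∀ E, ζ E ≠ 0 → w E ∧ ¬ Tv s y (P E))
    (oζ : ∀ u, ∀ x ∈ Hm s y u, x ≠ 0 → ∑ᶠ E, ζ E * (P E).ord x ≤ Q.ord x) (i : Fin c) :
    0 ≤ Q.ord (s i) + ∑ᶠ E, ζ E * mv s (P E) none := by
  obtain ⟨-, -, -, c4, c5, -⟩ := czr c ρ K s y X.rat
  have a := oζ 0 (s i) ⟨s i, IntermediateField.subset_adjoin _ _ ⟨i, rfl⟩, by simp [mon]⟩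
    (by simpa [fr] using X.rat.ind.ne_zero (i.castAdd ρ))
  refine le_trans ?_ (add_le_add_left a _)
  rw [← finsum_add_distrib (fs_fin hζ (X.fin _)) (fs_fin hζ (mv_fin X _))]
  refine finsum_nonneg fun E => ?_
  by_cases z : ζ E = 0
  · simp [z]
  rw [← mul_add, ← Int.cast_add]
  refine mul_nonneg (ζ0 E) (Int.cast_nonneg_iff.2 ?_)
  by_cases n : At s (P E) none
  · rw [mv_pos n, c4 _ n]
    omega
  · rw [mv_neg n, add_zero]
    refine c5 _ ((X.pg E (hζ E z).1).imp_right fun ⟨r, k⟩ => ?_) i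
    cases r with
    | none => exact absurd k n
    | some p => exact ⟨p, k⟩

theorem le_fs {f : ι → ℝ} (hf : (Function.support f).Finite) (f0 : ∀ E, 0 ≤ f E) (D : Finset ι) :
    ∑ E ∈ D, f E ≤ ∑ᶠ E, f E := by
  classical
  rw [finsum_eq_sum_of_support_subset f (s := D ∪ hf.toFinset) (by simp)]
  exact Finset.sum_le_sum_of_subset_of_nonneg Finset.subset_union_left fun E _ _ => f0 E

theorem den (V : Fin ρ → ℚ) : ∃ (t : ℕ) (v : Fin ρ → ℤ), 0 < t ∧ ∀ j, t * V j = v j := by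
  choose k hk using fun j => Finset.dvd_prod_of_mem (fun j => (V j).den) (Finset.mem_univ j)
  refine ⟨∏ j, (V j).den, fun j => k j * (V j).num, Finset.prod_pos fun j _ => (V j).den_pos,
    fun j => ?_⟩
  rw [hk j]
  push_cast
  rw [mul_right_comm, Rat.den_mul_eq_num, mul_comm]

end C67

open C67

open Classical in
/-- **COUNT** -/
theorem cnt67 (X : Fm s y w P) (ε0 : 0 ≤ ε) {G : (Fin ρ → ℤ) →₀ K}
    (hG : Hg s y G) (g0 : tot G ≠ 0) (hw : Hw ε q s y w P (tot G) κ)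
    (κf : {E | w E ∧ κ E ≠ 0}.Finite)
    (eff : ∀ E, w E → q * cz s y (P E) ≤ (P E).ord (tot G) + κ E) (Q : Pl K) (ζ : ι → ℝ)
    (ζ0 : 0 ≤ ζ) (hζ : ∀ E, ζ E ≠ 0 → w E ∧ ¬ Tv s y (P E))
    (oζ : ∀ u, ∀ x ∈ Hm s y u, x ≠ 0 → ∑ᶠ E, ζ E * (P E).ord x ≤ Q.ord x)
    (I : Set (Option (Pg c))) (hI : ∀ r ∈ I, ∃ E, ζ E ≠ 0 ∧ At s (P E) r) (D : Finset ι)
    (pt : ι → Option (Pg c)) (hD : ∀ E ∈ D, w E ∧ At s (P E) (pt E) ∧ pt E ∈ I) (ξ : ι → ℚ)
    (ξ0 : ∀ E, 0 ≤ ξ E) (h1 : ∀ r ∈ I, ∑ E ∈ D with pt E = r, ξ E * mu s (P E) r = 1) :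
    ∃ u, G u ≠ 0 ∧ ∑ E ∈ D, ξ E * ((P E).ord (G u) + κ E +
      q * (c + 1) * if pt E = none then mu s (P E) none else 0 : ℤ) ≤ q * (c + 1) := by
  obtain ⟨-, -, -, f4, f5, -⟩ := fac c ρ K s y X.rat
  obtain ⟨c1, c2, -⟩ := czr c ρ K s y X.rat
  obtain ⟨m, m0, m1, m2, m3⟩ := gp67 pol X.rat Q _ {r | ¬ ∃ E, w E ∧ At s (P E) r}
    (finsum_nonneg fun E => mul_nonneg (ζ0 E) (Int.cast_nonneg_iff.2 (mv_nn (s := s) (P E) none)))
    (hs_of X ζ0 hζ oζ) (((X.mis.image some).insert none).subset fun r hr => by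
      cases r with
      | none => exact mem_insert _ _
      | some p => exact .inr ⟨p, hr, rfl⟩) fun r hr => by
      rw [hv_eq X hζ oζ]
      refine finsum_eq_zero_of_forall_eq_zero fun E => ?_
      by_cases z : ζ E = 0
      · simp [z]
      · simp [mv_neg fun k => hr ⟨E, (hζ E z).1, k⟩]
  have mI : ∀ r ∈ I, 1 ≤ m r := fun r hr => m1 r (by
    obtain ⟨E, z, a⟩ := hI r hr
    rw [hv_eq X hζ oζ]
    refine lt_of_lt_of_le ?_ (le_fs (fs_fin hζ (mv_fin X r)) (fun E => mul_nonneg (ζ0 E)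
      (Int.cast_nonneg_iff.2 (mv_nn _ _))) {E})
    rw [Finset.sum_singleton, mv_pos a]
    exact mul_pos ((ζ0 E).lt_of_ne' z) (Int.cast_pos.2 a.1))
  obtain ⟨θ, θ0, θ1, θ2, θ3⟩ : ∃ θ : Option (Pg c) → ι → ℚ, (∀ r E, 0 ≤ θ r E) ∧
      (∀ r E, θ r E ≠ 0 → w E ∧ At s (P E) r) ∧
      (∀ r, m r ≠ 0 → ∑ᶠ E, (θ r E : ℝ) * mu s (P E) r = 1) ∧ ∀ E ∈ D, θ (pt E) E = ξ E := by
    have : ∀ r, ∃ θ : ι → ℚ, (∀ E, 0 ≤ θ E) ∧ (∀ E, θ E ≠ 0 → w E ∧ At s (P E) r) ∧
        (m r ≠ 0 → ∑ᶠ E, (θ E : ℝ) * mu s (P E) r = 1) ∧ ∀ E ∈ D, pt E = r → θ E = ξ E := fun r => by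
      by_cases hr : r ∈ I
      · refine ⟨fun E => if E ∈ D ∧ pt E = r then ξ E else 0, fun E => ?_, fun E z => ?_,
          fun _ => ?_, fun E a b => if_pos ⟨a, b⟩⟩
        · exact ite_nonneg (ξ0 E) le_rfl
        · have k : E ∈ D ∧ pt E = r := by_contra fun n => z (if_neg n)
          exact ⟨(hD E k.1).1, k.2 ▸ (hD E k.1).2.1⟩
        · rw [finsum_eq_sum_of_support_subset _ (s := D.filter fun E => pt E = r) fun E z => by
            by_contra n
            rw [Finset.mem_coe, Finset.mem_filter] at n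
            simp [if_neg n] at z, Finset.sum_congr rfl
              (g := fun E => (ξ E : ℝ) * mu s (P E) r) fun E n => by
                simp only [if_pos (Finset.mem_filter.1 n)]]
          exact_mod_cast h1 r hr
      by_cases z : m r = 0
      · exact ⟨0, fun _ => le_rfl, fun _ n => absurd rfl n, fun n => absurd z n,
          fun E a b => absurd (b ▸ (hD E a).2.2) hr⟩
      obtain ⟨E₀, a, b⟩ : ∃ E, w E ∧ At s (P E) r := by_contra fun n => z (m2 r n)
      have p : (0 : ℚ) < mu s (P E₀) r := Int.cast_pos.2 b.1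
      refine ⟨Pi.single E₀ (mu s (P E₀) r : ℚ)⁻¹, fun E => ?_, fun E n => ?_, fun _ => ?_,
        fun E a b => absurd (b ▸ (hD E a).2.2) hr⟩
      · rw [Pi.single_apply]
        split_ifs
        exacts [(inv_pos.2 p).le, le_rfl]
      · obtain rfl : E = E₀ := by_contra fun k => n (Pi.single_eq_of_ne k _)
        exact ⟨a, b⟩
      · rw [finsum_eq_single _ E₀ fun E n => by simp [n], Pi.single_eq_same]
        push_cast
        exact inv_mul_cancel₀ (Int.cast_ne_zero.2 b.1.ne')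
    choose θ a b d e using this
    exact ⟨θ, a, b, d, fun E n => e _ E n rfl⟩
  obtain ⟨π, hπ⟩ : ∃ π : ι → Option (Pg c), ∀ E r, At s (P E) r → π E = r :=
    ⟨fun E => Classical.epsilon (At s (P E)), fun E r a =>
      f4 _ _ _ (Classical.epsilon_spec ⟨r, a⟩) a⟩
  obtain ⟨t, v, t0, hv⟩ := den fun j => ∑ᶠ E, m (π E) * θ (π E) E * (P E).ord (y j)
  obtain ⟨η, hη⟩ : ∃ η : ι → ℝ, ∀ E, η E = t * (m (π E) * θ (π E) E) := ⟨_, fun _ => rfl⟩
  have η0 : 0 ≤ η := fun E => by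
    have : (0 : ℝ) ≤ θ (π E) E := Rat.cast_nonneg.2 (θ0 _ E)
    rw [hη]
    positivity
  have η1 : ∀ E, η E ≠ 0 → w E ∧ At s (P E) (π E) := fun E z => θ1 _ E fun n => z (by simp [hη, n])
  have η2 : ∀ E, η E ≠ 0 → w E ∧ ¬ Tv s y (P E) := fun E z => ⟨(η1 E z).1, (f5 _ _ (η1 E z).2).1⟩
  have η3 : ∀ r, ∑ᶠ E, η E * mv s (P E) r = t * m r := fun r => by
    have : ∀ E, η E * mv s (P E) r = t * m r * (θ r E * mu s (P E) r) := fun E => by
      by_cases a : At s (P E) r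
      · rw [hη, hπ E r a, mv_pos a]
        ring
      · simp [mv_neg a, show θ r E = 0 from by_contra fun n => a (θ1 r E n).2]
    simp only [this]
    rw [← mul_finsum]
    by_cases z : m r = 0
    · simp [z]
    · rw [θ2 r z, mul_one]
  obtain ⟨u, hu, k⟩ := hwc fac sums X ε0 hG g0 hw κf Q ζ ζ0 hζ oζ η η0 η2 v
    (fun p => t * (m (some p) - m none * p.dg : ℤ)) (t * ((c + 1) * (1 - m none : ℤ)))
    (mul_nonneg (Int.natCast_nonneg t) (mul_nonneg (by positivity) (by omega)))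
    (fun j => by
      have a := congrArg (Rat.castHom ℝ) (hv j)
      have b := (Rat.castHom ℝ).toAddMonoidHom.map_finsum_of_injective Rat.cast_injective
        fun E => m (π E) * θ (π E) E * (P E).ord (y j)
      simp only [hη, fs_mul]
      simp only [RingHom.toAddMonoidHom_eq_coe, AddMonoidHom.coe_coe, map_mul, map_natCast,
        map_intCast] at a b
      rw [← a, b]
      rfl)
    (fun p => by
      rw [fs_lam X η2, η3, η3]
      push_cast
      ring)
    ((m3 t v).imp_left fun a => ⟨a.1, fun p => by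
      have := congrArg (Nat.cast : ℕ → ℤ) (a.2 p)
      push_cast at this
      linarith⟩)
  refine ⟨u, hu, ?_⟩
  have nn : ∀ E r, w E → At s (P E) r →
      0 ≤ (P E).ord (G u) + κ E + q * (c + 1) * mv s (P E) none := fun E r a b => by
    have a1 := X.inv E a (f5 _ _ b).1 G hG u hu
    have a2 := eff E a
    have q0 : (0 : ℤ) ≤ q := Int.natCast_nonneg q
    have b0 := b.1
    cases r with
    | none =>
      rw [mv_pos b]
      nlinarith [mul_le_mul_of_nonneg_left (c2 _ b) q0,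
        mul_nonneg q0 (by omega : 0 ≤ mu s (P E) none - 1)]
    | some p =>
      rw [mv_neg (r := none) fun n => by simpa using f4 _ _ _ b n]
      nlinarith [mul_nonneg q0 (by have := c1 _ p b; omega : 0 ≤ cz s y (P E))]
  have s1 := fs_fin η2 (X.fin (G u))
  have s2 := fs_fin η2 κf
  have s3 := fs_fin (fun E hE => η2 E (right_ne_zero_of_mul hE) :
    ∀ E, (q * (c + 1) : ℝ) * η E ≠ 0 → _) (mv_fin X none)
  have e : ∀ E, η E * (P E).ord (G u) + η E * κ E + (q * (c + 1) : ℝ) * η E * mv s (P E) none =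
      η E * ((P E).ord (G u) + κ E + q * (c + 1) * mv s (P E) none : ℤ) := fun E => by
    push_cast
    ring
  have s12 : (Function.support fun E => η E * (P E).ord (G u) + η E * κ E).Finite :=
    (s1.union s2).subset (Function.support_add _ _)
  have s4 := le_fs (f := fun E => η E * (P E).ord (G u) + η E * κ E +
    (q * (c + 1) : ℝ) * η E * mv s (P E) none) ((s12.union s3).subset (Function.support_add _ _))
    (fun E => by
      rw [e]
      by_cases z : η E = 0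
      · simp [z]
      · exact mul_nonneg (η0 E) (Int.cast_nonneg_iff.2 (nn E _ (η1 E z).1 (η1 E z).2))) D
  rw [finsum_add_distrib s12 s3, finsum_add_distrib s1 s2, fs_mul, η3] at s4
  have t1 : (0 : ℝ) < t := Nat.cast_pos.2 t0
  have s5 : t * ∑ E ∈ D, (ξ E : ℝ) * ((P E).ord (G u) + κ E +
      q * (c + 1) * if pt E = none then mu s (P E) none else 0 : ℤ) ≤ t * (q * (c + 1)) := by
    rw [Finset.mul_sum]
    refine (Finset.sum_le_sum fun E n => ?_).trans (s4.trans ?_)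
    · obtain ⟨a1, a2, a3⟩ := hD E n
      have a4 : (if pt E = none then mu s (P E) none else 0) = mv s (P E) none := by
        split_ifs with z
        exacts [(mv_pos (z ▸ a2)).symm, (mv_neg fun k => z (f4 _ _ _ a2 k)).symm]
      rw [e, a4, hη, hπ E _ a2, θ3 E n, ← mul_assoc]
      exact mul_le_mul_of_nonneg_right (mul_le_mul_of_nonneg_left (le_mul_of_one_le_left
        (Rat.cast_nonneg.2 (ξ0 E)) (Nat.one_le_cast.2 (mI _ a3))) t1.le)
        (Int.cast_nonneg_iff.2 (nn E _ a1 a2))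
    · push_cast at k
      linarith
  refine (Rat.cast_le (K := ℝ)).1 ?_
  simpa only [Rat.cast_sum, Rat.cast_mul, Rat.cast_intCast, Rat.cast_add, Rat.cast_natCast,
    Rat.cast_one] using le_of_mul_le_mul_left s5 t1

end Vale.Agent.P283R.Pq
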