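import Vale.Agent.P283R.Pq.Gt68
import Vale.Agent.P283R.Wd.Hz66

/-!
# P283R, block PQ: few kept primes carry the weights
-/

open Set

noncomputable section

namespace Vale.Agent.P283R.Pq

open Vale.Agent.P287D Vale.Agent.P297Z Vale.Agent.P283M Vale.Agent.P283R.To G68

variable {c ρ : ℕ} {K : Type} [Field K] [Algebra ℂ K] {ι : Type} {s : Fin c → K} {y : Fin ρ → K}
  {w : ι → Prop} {P : ι → Pl K}

/-- weights with the same vector and the same page sums -/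
theorem fs_eq (X : Fm s y w P) {ζ ζ' : ι → ℝ} (hζ : ∀ E, ζ E ≠ 0 → w E ∧ ¬ Tv s y (P E))
    (hζ' : ∀ E, ζ' E ≠ 0 → w E ∧ ¬ Tv s y (P E))
    (h1 : ∀ j, ∑ᶠ E, ζ' E * (P E).ord (y j) = ∑ᶠ E, ζ E * (P E).ord (y j))
    (h2 : ∀ r, ps s P ζ' r = ps s P ζ r) :
    ∀ u, ∀ a ∈ Hm s y u, a ≠ 0 → ∑ᶠ E, ζ' E * (P E).ord a = ∑ᶠ E, ζ E * (P E).ord a :=
  fun u a ha a0 => by
    obtain ⟨b, n, b0, rfl⟩ := (fac60 c ρ K s y X.rat).1 u a ha a0
    simp only [Pl.ord_smul _ b0]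
    simp only [fs_hm fac60 X hζ, fs_hm fac60 X hζ', ps_lam X hζ, ps_lam X hζ', h1, h2]

/-- **Caratheodory on the kept primes** -/
theorem crt (X : Fm s y w P) (J : Finset (Option (Pg c))) {ζ : ι → ℝ} (ζ0 : 0 ≤ ζ)
    (hζ : ∀ E, ζ E ≠ 0 → w E ∧ ¬ Tv s y (P E)) : ∃ (ζ' : ι → ℝ) (t : Finset ι), 0 ≤ ζ' ∧
      (∀ E, ζ' E ≠ 0 → w E ∧ ¬ Tv s y (P E)) ∧ t.card ≤ ρ + J.card ∧
      (∀ E ∈ t, w E ∧ ¬ Tv s y (P E) ∧ ∀ r, At s (P E) r → r ∈ J) ∧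
      (∀ E ∉ t, (∀ r, At s (P E) r → r ∈ J) → ζ' E = 0) ∧
      (∀ E r, At s (P E) r → r ∉ J → ζ' E = ζ E) ∧ (∀ r, ps s P ζ' r = ps s P ζ r) ∧
      ∀ u, ∀ a ∈ Hm s y u, a ≠ 0 → ∑ᶠ E, ζ' E * (P E).ord a = ∑ᶠ E, ζ E * (P E).ord a := by
  classical
  obtain ⟨I, hI⟩ : ∃ I : Finset ι, ∀ E, E ∈ I ↔
      w E ∧ ¬ Tv s y (P E) ∧ ∀ r, At s (P E) r → r ∈ J :=
    ⟨(fin_kept X J).toFinset, fun E => (fin_kept X J).mem_toFinset⟩
  obtain ⟨ξ, ξ0, h1, h2⟩ := Wd.Z66.car (V := Fin ρ ⊕ J → ℝ) (fun E : I => Sum.elim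
    (fun j => ((P E).ord (y j) : ℝ)) fun r => am s (P E) r) _ (fun E => ζ E) le_rfl fun E => ζ0 E
  let ζ' : ι → ℝ := fun E => if h : E ∈ I then ξ ⟨E, h⟩ else ζ E
  have hζ' : ∀ E, ζ' E ≠ 0 → w E ∧ ¬ Tv s y (P E) := fun E z => by
    by_cases h : E ∈ I
    · exact ⟨((hI E).1 h).1, ((hI E).1 h).2.1⟩
    · exact hζ E (by simpa only [ζ', dif_neg h] using z)
  have sm : ∀ F : ι → ℤ, {E | w E ∧ F E ≠ 0}.Finite →
      ∑ E : I, ξ E * F E = ∑ E : I, ζ E * F E → ∑ᶠ E, ζ' E * F E = ∑ᶠ E, ζ E * F E :=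
    fun F hF e => by
      rw [← sub_eq_zero, ← finsum_sub_distrib (fs_fin hζ' hF) (fs_fin hζ hF),
        finsum_eq_sum_of_support_subset (s := I) _ fun E z => by_contra fun h => z (by
          simp only [ζ', dif_neg (show E ∉ I from h), sub_self]), ← Finset.sum_coe_sort,
        Finset.sum_sub_distrib, ← e, sub_eq_zero]
      exact Finset.sum_congr rfl fun E _ => by simp only [ζ', dif_pos E.2]
  have pp : ∀ r, ps s P ζ' r = ps s P ζ r := fun r => sm _ (am_fin X r) (by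
    by_cases h : r ∈ J
    · simpa [Finset.sum_apply] using congrFun h1 (.inr ⟨r, h⟩)
    · have : ∀ E : I, am s (P E) r = 0 := fun E => am_not fun d => h (((hI E).1 E.2).2.2 r d)
      simp [this])
  refine ⟨ζ', (Finset.univ.filter fun E : I => ξ E ≠ 0).map (Function.Embedding.subtype _),
    fun E => ?_, hζ', by simpa using h2, fun E h => ?_, fun E h e => ?_, fun E r a h => ?_, pp,
    fs_eq X hζ hζ' (fun j => sm _ (X.fin _) ?_) pp⟩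
  · simp only [ζ']
    split_ifs
    exacts [ξ0 _, ζ0 _]
  · obtain ⟨E, -, rfl⟩ := Finset.mem_map.1 h
    exact (hI E).1 E.2
  · by_cases z : E ∈ I
    · simp only [ζ', dif_pos z]
      exact by_contra fun d => h (Finset.mem_map.2 ⟨⟨E, z⟩, by simpa using d, rfl⟩)
    · simp only [ζ', dif_neg z]
      exact by_contra fun d => z ((hI E).2 ⟨(hζ E d).1, (hζ E d).2, e⟩)
  · exact dif_neg fun z => h (((hI E).1 z).2.2 r a)
  · simpa [Finset.sum_apply] using congrFun h1 (.inl j)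

end Vale.Agent.P283R.Pq
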