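import Vale.Agent.P283R.Pq.Cnt67
import Vale.Agent.P283R.Wd.Gap25

/-!
# P283R, block PQ: one term has the order zero outside of boundedly many pages
-/

open Set

noncomputable section

namespace Vale.Agent.P283R.Pq

open Vale.Agent.P287D Vale.Agent.P283M Vale.Agent.P283R.To Vale.Agent.P297Z C67

variable {c ρ : ℕ} {K : Type} [Field K] [Algebra ℂ K] {ι : Type} {s : Fin c → K} {y : Fin ρ → K}
  {w : ι → Prop} {P : ι → Pl K} {ε : ℝ} {q : ℕ} {κ : ι → ℤ}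

/-- **HEL** at the level of places -/
theorem hel67 (X : Fm s y w P) (ε0 : 0 ≤ ε) (hq : 1 ≤ q) {G : (Fin ρ → ℤ) →₀ K}
    (hG : Hg s y G) (g0 : tot G ≠ 0) (hw : Hw ε q s y w P (tot G) κ)
    (κf : {E | w E ∧ κ E ≠ 0}.Finite)
    (eff : ∀ E, w E → q * cz s y (P E) ≤ (P E).ord (tot G) + κ E) (Q : Pl K) (ζ : ι → ℝ)
    (ζ0 : 0 ≤ ζ) (hζ : ∀ E, ζ E ≠ 0 → w E ∧ ¬ Tv s y (P E))
    (oζ : ∀ u, ∀ x ∈ Hm s y u, x ≠ 0 → ∑ᶠ E, ζ E * (P E).ord x ≤ Q.ord x) :
    ∃ u, G u ≠ 0 ∧ ∃ J : Finset (Option (Pg c)), none ∈ J ∧ J.card ≤ q * (c + 1) * (ρ + 2) + 1 ∧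
      ∀ E r, w E → At s (P E) r → (∃ E', ζ E' ≠ 0 ∧ At s (P E') r) → r ∉ J →
        mu s (P E) r = 1 ∧ (P E).ord (G u) + κ E = 0 := by
  classical
  obtain ⟨f1, -, -, f4, f5, f6, -⟩ := fac c ρ K s y X.rat
  obtain ⟨c1, c2, -⟩ := czr c ρ K s y X.rat
  obtain ⟨π, hπ⟩ : ∃ π : ι → Option (Pg c), ∀ E r, At s (P E) r → π E = r :=
    ⟨fun E => Classical.epsilon (At s (P E)), fun E r a =>
      f4 _ _ _ (Classical.epsilon_spec ⟨r, a⟩) a⟩
  have fS : {E | w E ∧ At s (P E) (π E) ∧ (∃ E', ζ E' ≠ 0 ∧ At s (P E') (π E)) ∧ π E ≠ none ∧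
      ¬ (mu s (P E) (π E) = 1 ∧ ∀ m ∈ G.support, (P E).ord (G m) + κ E = 0)}.Finite := by
    refine ((X.finc.union κf).union (G.support.finite_toSet.biUnion
      fun m _ => X.fin (G m))).subset fun E ⟨a, b, _, d, e⟩ => ?_
    by_contra n
    simp only [mem_union, mem_ofPred_eq, a, true_and, mem_iUnion, not_or, not_not, not_exists,
      Finset.mem_coe] at n
    obtain ⟨p, hp⟩ := Option.ne_none_iff_exists'.1 d
    rw [hp] at b e
    have := c1 _ p b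
    have := b.1
    exact e ⟨by omega, fun m hm => by rw [n.2 m hm, n.1.2, add_zero]⟩
  obtain ⟨I, hI⟩ : ∃ I : Finset (Option (Pg c)), I = fS.toFinset.image π := ⟨_, rfl⟩
  have hI1 : ∀ r ∈ I, r ≠ none ∧ (∃ E, w E ∧ At s (P E) r) ∧ ∃ E, ζ E ≠ 0 ∧ At s (P E) r :=
    fun r hr => by
      obtain ⟨E, a, rfl⟩ := Finset.mem_image.1 (hI ▸ hr)
      rw [fS.mem_toFinset] at a
      exact ⟨a.2.2.2.1, ⟨E, a.1, a.2.1⟩, a.2.2.1⟩
  have fD : {E | w E ∧ At s (P E) (π E) ∧ π E ∈ I}.Finite :=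
    (I.finite_toSet.biUnion fun r _ => mv_fin X r).subset fun E ⟨a, b, d⟩ =>
      mem_biUnion d ⟨a, by rw [mv_pos b]; exact b.1.ne'⟩
  obtain ⟨D, hD⟩ : ∃ D : Finset ι, ∀ E, E ∈ D ↔ w E ∧ At s (P E) (π E) ∧ π E ∈ I :=
    ⟨fD.toFinset, fun _ => fD.mem_toFinset⟩
  choose b n b0 hn using fun m : G.support => f1 m _ (hG m) (Finsupp.mem_support_iff.1 m.2)
  have mn : ∀ d : D, ((mu s (P d) (π d)).toNat : ℤ) = mu s (P d) (π d) := fun d =>
    Int.toNat_of_nonneg ((hD d).1 d.2).2.1.1.le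
  obtain ⟨m, J, h1, h2⟩ := Wd.hel (I := I) (D := D) (T := G.support) hq
    (fun d => ⟨π d, ((hD d).1 d.2).2.2⟩)
    (fun r => by
      obtain ⟨E, a, e⟩ := (hI1 r r.2).2.1
      have z := hπ E r e
      exact ⟨⟨E, (hD E).2 ⟨a, z ▸ e, z ▸ r.2⟩⟩, Subtype.ext z⟩)
    (fun d => (mu s (P d) (π d)).toNat) (fun d => by
      have := ((hD d).1 d.2).2.1.1
      omega) (fun d j => (P d).ord (y j)) (fun d => κ d)
    (fun m d => (P d).ord (G m) + κ d - q * (mu s (P d) (π d) - 1))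
    (fun m d => by
      obtain ⟨a1, a2, a3⟩ := (hD d).1 d.2
      obtain ⟨p, hp⟩ := Option.ne_none_iff_exists'.1 (hI1 _ a3).1
      rw [hp] at a2 ⊢
      have := X.inv d a1 (f5 _ _ a2).1 G hG m (Finsupp.mem_support_iff.1 m.2)
      have := eff d a1
      have := mul_le_mul_of_nonneg_left (c1 _ p a2) (Int.natCast_nonneg q)
      linarith)
    (fun m => m) (fun m r => od (n m) r)
    (fun m d z => by
      have z' : mu s (P d) (π d) = 1 := by rw [← mn d, z]; rfl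
      rw [hn m, Pl.ord_smul _ (b0 m), f6 _ _ _ _ ((hD d).1 d.2).2.1, z', dotProduct]
      simp only [mul_comm ((P d).ord (y _))]
      ring) (q * (c + 1))
    fun ξ ξ0 h => by
      obtain ⟨u, hu, k⟩ := cnt67 X ε0 hG g0 hw κf eff Q ζ ζ0 hζ oζ I (fun r a => (hI1 r a).2.2) D π
        (fun E a => (hD E).1 a) (fun E => if a : E ∈ D then ξ ⟨E, a⟩ else 0)
        (fun E => by
          by_cases a : E ∈ D
          · simpa only [dif_pos a] using ξ0 _
          · simp only [dif_neg a, le_rfl])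
        fun r a => by
          rw [← h ⟨r, a⟩, Finset.sum_filter, Finset.sum_filter, ← Finset.sum_coe_sort D]
          refine Finset.sum_congr rfl fun d _ => ?_
          simp only [Subtype.mk.injEq, dif_pos d.2]
          split_ifs with z
          · rw [← z, ← mn d, Int.cast_natCast, Int.toNat_natCast]
          · rfl
      refine ⟨⟨u, Finsupp.mem_support_iff.2 hu⟩, le_of_eq_of_le ?_ k⟩
      rw [← Finset.sum_coe_sort D]
      refine Finset.sum_congr rfl fun d _ => ?_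
      have := congrArg (Int.cast : ℤ → ℚ) (mn d)
      rw [Int.cast_natCast] at this
      simp only [dif_pos d.2, if_neg (hI1 _ ((hD d).1 d.2).2.2).1, this]
      push_cast
      ring
  refine ⟨m, Finsupp.mem_support_iff.1 m.2, insert none (J.image (↑)), Finset.mem_insert_self _ _,
    (Finset.card_insert_le _ _).trans (Nat.succ_le_succ (Finset.card_image_le.trans
      (by exact_mod_cast h1))), fun E r a e p n => ?_⟩
  obtain rfl := hπ E r e
  simp only [Finset.mem_insert, not_or] at n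
  by_cases z : π E ∈ I
  · obtain ⟨k1, k2⟩ := h2 ⟨E, (hD E).2 ⟨a, e, z⟩⟩ fun k => n.2 (Finset.mem_image.2 ⟨_, k, rfl⟩)
    have z' : mu s (P E) (π E) = 1 := by rw [← mn ⟨E, (hD E).2 ⟨a, e, z⟩⟩, k1]; rfl
    exact ⟨z', by simpa [z'] using k2⟩
  · have : mu s (P E) (π E) = 1 ∧ ∀ m ∈ G.support, (P E).ord (G m) + κ E = 0 := by_contra fun k =>
      z (hI ▸ Finset.mem_image_of_mem π (fS.mem_toFinset.2 ⟨a, e, p, n.1, k⟩))
    exact ⟨this.1, this.2 m m.2⟩

end Vale.Agent.P283R.Pq
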