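import Vale.Agent.P283R.Pq.St

/-!
# P283R, block PQ: functions without poles on the torus are sums of homogeneous functions
-/

open Set CategoryTheory AlgebraicGeometry

noncomputable section

namespace Vale.Agent.P283R.Pq

open Vale.Agent.P287D Vale.Agent.P283M Vale.Agent.P283R.To Vale.Agent.P297Z

namespace L70

variable {K : Type} [Field K] [Algebra ℂ K] {c ρ : ℕ} {s : Fin c → K} {a b : K} {y : Fin ρ → K}
  {u v : Fin ρ → ℤ} {G G' : (Fin ρ → ℤ) →₀ K}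

theorem hm_mul (y0 : ∀ j, y j ≠ 0) (h : a ∈ Hm s y u) (k : b ∈ Hm s y v) :
    a * b ∈ Hm s y (u + v) := by
  obtain ⟨φ, m, rfl⟩ := h
  obtain ⟨ψ, n, rfl⟩ := k
  exact ⟨φ * ψ, mul_mem m n, by rw [mon_add y0]; ring⟩

theorem hm_one : (1 : K) ∈ Hm s y 0 := ⟨1, one_mem _, by simp [mon]⟩

theorem hm_zero : (0 : K) ∈ Hm s y u := ⟨0, zero_mem _, (zero_mul _).symm⟩

theorem hm_inv (h : a ∈ Hm s y u) : a⁻¹ ∈ Hm s y (-u) := by
  obtain ⟨φ, m, rfl⟩ := h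
  exact ⟨φ⁻¹, inv_mem m, by simp [mon, mul_comm]⟩

theorem hm_sub (h : a ∈ Hm s y u) (k : b ∈ Hm s y u) : a - b ∈ Hm s y u := by
  obtain ⟨φ, m, rfl⟩ := h
  obtain ⟨ψ, n, rfl⟩ := k
  exact ⟨φ - ψ, sub_mem m n, (sub_mul _ _ _).symm⟩

theorem hm_pow (y0 : ∀ j, y j ≠ 0) (h : a ∈ Hm s y u) (n : ℕ) : ∃ v, a ^ n ∈ Hm s y v := by
  induction n with
  | zero => exact ⟨0, pow_zero a ▸ hm_one⟩
  | succ n k => exact let ⟨v, k⟩ := k; ⟨_, pow_succ a n ▸ hm_mul y0 k h⟩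

omit [Algebra ℂ K] in
theorem tot_sub : tot (G - G') = tot G - tot G' := Finsupp.sum_sub_index fun _ _ _ => rfl

/-- the product with a homogeneous function -/
theorem shift (y0 : ∀ j, y j ≠ 0) (h : a ∈ Hm s y u) (k : Hg s y G) :
    ∃ G₁, Hg s y G₁ ∧ tot G₁ = a * tot G ∧ ∀ v, G₁ (u + v) = a * G v := by
  have e : ∀ v, Finsupp.equivMapDomain (Equiv.addLeft u) (a • G) (u + v) = a * G v := fun v => by
    simp
  refine ⟨Finsupp.equivMapDomain (Equiv.addLeft u) (a • G), fun v => ?_, ?_, e⟩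
  · have := hm_mul y0 h (k (-u + v))
    rwa [← e, add_neg_cancel_left] at this
  · rw [tot, Finsupp.sum_equivMapDomain, Finsupp.sum_smul_index' fun _ => rfl, tot,
      Finsupp.mul_sum]
    rfl

end L70

open L70
open Vale.Agent.P289 (Pt)
open Vale.Agent.P283M.Stm Vale.Agent.P283M.Stm.Var Vale.Agent.P283M.Br Vale.Agent.P283R.Gl

/-- **LAUR** -/
theorem laur70 : LAUR := by
  classical
  intro sums rat c₀ ρ X W s y x h hx φ φ0 hφ
  have r := (rat c₀ ρ X W s y x h hx).1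
  obtain ⟨s1, -, s3⟩ := sums c₀ ρ X.K s y r
  have y0 : ∀ j, y j ≠ 0 := fun j => by
    simpa [fr] using r.ind.ne_zero (Fin.natAdd c₀ j)
  obtain ⟨U, UW, hU, xU, eU⟩ := h.2 x hx
  have dec : ∀ g, (∀ x' ∈ U, RegAt g x') → ∃ G, Hg s y G ∧ g = tot G ∧
      ∀ u, ∀ x' ∈ U, RegAt (G u) x' := fun g hg => by
    obtain ⟨G, a, b, c⟩ := s3 _ g (eU g hg)
    refine ⟨G, a, b, fun u x' hx' => ?_⟩
    refine Submodule.span_induction (p := fun g _ => RegAt g x') (fun g k => k.1 x' hx') ?_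
      (fun _ _ _ _ => (lr x').add_mem) (fun c _ _ => reg_smul c) (c u)
    exact map_zero (algebraMap ℂ X.K) ▸ reg_const 0 x'
  have nn : ∀ g, (∀ x' ∈ U, RegAt g x') → ∀ E : X.PrimeDiv, E.1 ∈ U → 0 ≤ (pq E).ord g :=
    fun g hg E c => Pl.ord_nonneg_of_mem _ ((pq_is E _).2 (hg _ c))
  have g0 : genericPoint X.X ∈ U := (genericPoint_specializes x).mem_open U.isOpen xU
  have pos : ∀ E : X.PrimeDiv, E.1 ∈ U → ∀ u, ∀ a ∈ Hm s y u, a ≠ 0 → 0 < (pq E).ord a →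
      ∃ v, ∃ b ∈ Hm s y v, b ≠ 0 ∧ (∀ x' ∈ U, RegAt b x') ∧ 0 < (pq E).ord b := by
    intro E c u a ha a0 p
    obtain ⟨b, h1, h2, h3⟩ := Am.frac hU g0 (P270L.S.mem_loc_gen a)
    obtain ⟨G, g1, g2, g3⟩ := dec _ (Am.mem_reg.1 h1)
    obtain ⟨G', k1, k2, k3⟩ := dec _ (Am.mem_reg.1 h3)
    obtain ⟨G₁, l1, l2, l3⟩ := shift y0 ha g1
    have e : G₁ = G' := sub_eq_zero.1 (by_contra fun n => s1 _ (fun u => hm_sub (l1 u) (k1 u)) n
      (by rw [tot_sub, l2, ← g2, ← k2, mul_comm, sub_self]))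
    obtain ⟨v, hv⟩ : ∃ v, G v ≠ 0 := by
      by_contra! n
      exact h2.1 (by rw [g2, show G = 0 from Finsupp.ext n, tot, Finsupp.sum_zero_index])
    refine ⟨_, _, hm_mul y0 ha (g1 v), mul_ne_zero a0 hv, by rw [← l3, e]; exact k3 _, ?_⟩
    rw [Pl.ord_mul _ a0 hv]
    linarith [nn _ (g3 v) E c]
  have k : ∀ T : Finset X.PrimeDiv, ∃ v, ∃ b ∈ Hm s y v, b ≠ 0 ∧ (∀ x' ∈ U, RegAt b x') ∧
      ∀ E ∈ T, E.1 ∈ U → 0 ≤ (pq E).ord φ + (pq E).ord b := fun T => by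
    induction T using Finset.induction_on with
    | empty => exact ⟨0, 1, hm_one, one_ne_zero, fun _ _ => reg_one,
        fun _ a => (Finset.notMem_empty _ a).elim⟩
    | insert E T _ ih =>
      obtain ⟨v, b, b1, b0, b2, b3⟩ := ih
      by_cases c : E.1 ∈ U ∧ (pq E).ord φ < 0
      · obtain ⟨v', b', c1, c0, c2, c3⟩ : ∃ v, ∃ b ∈ Hm s y v, b ≠ 0 ∧ (∀ x' ∈ U, RegAt b x') ∧
            0 < (pq E).ord b := by
          have n : ¬ Tv s y (pq E) := fun t => c.2.not_ge (hφ E (UW c.1) t)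
          simp only [Tv, not_forall] at n
          obtain ⟨u, a, ha, a0, n⟩ := n
          rcases lt_or_gt_of_ne n with n | n
          · exact pos E c.1 _ _ (hm_inv ha) (inv_ne_zero a0) (by rw [Pl.ord_inv]; omega)
          · exact pos E c.1 _ _ ha a0 n
        obtain ⟨n, hn⟩ := Int.eq_ofNat_of_zero_le (show 0 ≤ -(pq E).ord φ by omega)
        obtain ⟨v'', hv⟩ := hm_pow y0 c1 n
        have rp : ∀ x' ∈ U, RegAt (b' ^ n) x' := fun x' hx' => reg_pow (c2 x' hx') n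
        refine ⟨_, _, hm_mul y0 b1 hv, mul_ne_zero b0 (pow_ne_zero _ c0),
          fun x' hx' => reg_mul (b2 x' hx') (rp x' hx'), fun E' hE' c' => ?_⟩
        rw [Pl.ord_mul _ b0 (pow_ne_zero _ c0)]
        rcases Finset.mem_insert.1 hE' with rfl | hE'
        · rw [Pl.ord_pow]
          nlinarith [nn _ b2 E' c']
        · linarith [b3 E' hE' c', nn _ rp E' c']
      · refine ⟨v, b, b1, b0, b2, fun E' hE' c' => ?_⟩
        rcases Finset.mem_insert.1 hE' with rfl | hE'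
        · exact add_nonneg (not_lt.1 fun a => c ⟨c', a⟩) (nn _ b2 E' c')
        · exact b3 E' hE' c'
  obtain ⟨v, b, b1, b0, b2, b3⟩ := k (fin X φ).toFinset
  have q : ∀ x ∈ U, RegAt (φ * b) x := fun x hx => har X _ x fun E hE => by
    have c : E.1 ∈ U := hE.mem_open U.isOpen hx
    rw [pq_ord, Pl.ord_mul _ φ0 b0]
    by_cases e : ord φ E = 0
    · rw [← pq_ord, e, zero_add]
      exact nn _ b2 E c
    · exact b3 E ((fin X φ).mem_toFinset.2 e) c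
  obtain ⟨G, g1, g2, -⟩ := dec _ q
  obtain ⟨G₁, l1, l2, -⟩ := shift y0 (hm_inv b1) g1
  exact ⟨G₁, l1, by rw [l2, ← g2, mul_comm φ, inv_mul_cancel_left₀ b0]⟩

end Vale.Agent.P283R.Pq
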